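import Vale.Agent.P078.Any.Model
import Vale.Agent.P078.Cartan.Orbit

/-!
Words, balls and local charts of a model without a measure.
-/

namespace Vale.Agent.P078.Any

open Function Filter Topology
open Vale.Agent.P078.Cartan.OrbitModel (wordsLE mem_wordsLE)

set_option linter.unusedSectionVars false

theorem mem_ball_self {V : Type} [DecidableEq V] (nb : V → Finset V) :
    ∀ n u, u ∈ ball nb n u
  | 0, u => Finset.mem_singleton_self u
  | n + 1, u => Finset.mem_union_left _ (mem_ball_self nb n u)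

namespace Model

variable {Ω : Type} [TopologicalSpace Ω] {L : ℕ} (O : Model Ω L)

theorem act_nil (ω : Ω) : O.act [] ω = ω := rfl

theorem act_cons (g : Fin L) (w : List (Fin L)) (ω : Ω) :
    O.act (g :: w) ω = O.T g (O.act w ω) := rfl

theorem act_append (w w' : List (Fin L)) (ω : Ω) :
    O.act (w ++ w') ω = O.act w (O.act w' ω) := by
  simp [act]

/-- The inverse word. -/
def rev (w : List (Fin L)) : List (Fin L) := w.reverse.map O.inv

theorem act_rev (w : List (Fin L)) (ω : Ω) : O.act (O.rev w) (O.act w ω) = ω := by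
  induction w with
  | nil => rfl
  | cons g w ih =>
    have : O.rev (g :: w) = O.rev w ++ [O.inv g] := by simp [rev]
    rw [this, act_append, act_cons, act_cons, act_nil, O.T_inv, ih]

theorem continuous_act (w : List (Fin L)) : Continuous (O.act w) := by
  induction w with
  | nil => exact continuous_id
  | cons g w ih => exact (O.T g).continuous.comp ih

theorem mem_nb {a b : Ω} : b ∈ O.nb a ↔ ∃ g, O.T g a = b := by
  simp [nb]

theorem nb_symm (a b : Ω) (h : b ∈ O.nb a) : a ∈ O.nb b := by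
  obtain ⟨g, rfl⟩ := O.mem_nb.1 h
  exact O.mem_nb.2 ⟨O.inv g, O.T_inv g a⟩

theorem card_nb_le (v : Ω) : (O.nb v).card ≤ L := by
  classical
  unfold nb
  exact Finset.card_image_le.trans (le_of_eq (Finset.card_fin L))

variable [DecidableEq Ω]

theorem mem_ball {ω v : Ω} {k : ℕ} :
    v ∈ ball O.nb k ω ↔ ∃ w : List (Fin L), w.length ≤ k ∧ O.act w ω = v := by
  induction k generalizing v with
  | zero => simp [ball, act_nil, eq_comm]
  | succ k ih =>
    simp only [ball, Finset.mem_union, Finset.mem_biUnion, ih, mem_nb]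
    constructor
    · rintro (⟨w, hw, e⟩ | ⟨u, ⟨w, hw, rfl⟩, g, rfl⟩)
      · exact ⟨w, by omega, e⟩
      · exact ⟨g :: w, by simp; omega, rfl⟩
    · rintro ⟨w, hw, e⟩
      cases w with
      | nil => exact Or.inl ⟨[], by simp, e⟩
      | cons g v' => exact Or.inr ⟨_, ⟨v', by simpa using hw, rfl⟩, g, e⟩

theorem act_mem_ball {ω : Ω} {k : ℕ} {w : List (Fin L)} (h : w.length ≤ k) :
    O.act w ω ∈ ball O.nb k ω :=
  O.mem_ball.2 ⟨w, h, rfl⟩

theorem ball_mono {k k' : ℕ} (h : k ≤ k') (ω : Ω) : ball O.nb k ω ⊆ ball O.nb k' ω := fun v hv => by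
  rw [mem_ball] at hv ⊢
  obtain ⟨w, hw, e⟩ := hv
  exact ⟨w, hw.trans h, e⟩

theorem act_name {ω v : Ω} {w : List (Fin L)} (h : O.act w ω = v) :
    O.act (O.name ω v) ω = v := by
  unfold name
  split_ifs with h1 h2
  · rw [act_nil, h1]
  · exact h2.choose_spec
  · exact absurd ⟨w, h⟩ h2

variable [CompactSpace Ω] [T2Space Ω]

theorem eventually_eq_iff (w w' : List (Fin L)) (ω₀ : Ω) :
    ∀ᶠ ω in 𝓝 ω₀, (O.act w ω = O.act w' ω ↔ O.act w ω₀ = O.act w' ω₀) := by
  by_cases h : O.act w ω₀ = O.act w' ω₀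
  · filter_upwards [(O.isOpen_eq w w').mem_nhds h] with ω hω
    exact iff_of_true hω h
  · filter_upwards [(isClosed_eq (O.continuous_act w) (O.continuous_act w')).isOpen_compl.mem_nhds h]
      with ω hω
    exact iff_of_false hω h

/-- A labelling of a ball at a point. -/
structure IsChart (k : ℕ) {n : ℕ} (φ : Fin n → List (Fin L)) (i₀ : Fin n) (ω : Ω) : Prop where
  length_le : ∀ i, (φ i).length ≤ k
  injective : Injective fun i => O.act (φ i) ω
  image_eq : ball O.nb k ω = Finset.univ.image fun i => O.act (φ i) ω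
  base : O.act (φ i₀) ω = ω

/-- Every ball has a labelling which stays one nearby. -/
theorem exists_chart (ω₀ : Ω) (k : ℕ) :
    ∃ (n : ℕ) (φ : Fin n → List (Fin L)) (i₀ : Fin n), ∀ᶠ ω in 𝓝 ω₀, O.IsChart k φ i₀ ω := by
  have hex : ∀ x : ball O.nb k ω₀, ∃ w : List (Fin L), w.length ≤ k ∧ O.act w ω₀ = x :=
    fun x => O.mem_ball.1 x.2
  choose ψ hψlen hψ using hex
  let e := (ball O.nb k ω₀).equivFin
  let φ : Fin (ball O.nb k ω₀).card → List (Fin L) := fun i => ψ (e.symm i)
  have hinj : Injective fun i => O.act (φ i) ω₀ := fun i j h => by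
    simp only [φ, hψ] at h
    exact e.symm.injective (Subtype.ext h)
  refine ⟨_, φ, e ⟨ω₀, mem_ball_self _ _ _⟩, ?_⟩
  have h : ∀ x ∈ wordsLE L k, ∀ᶠ ω in 𝓝 ω₀, ∃ i, O.act (φ i) ω = O.act x ω := by
    intro x hx
    have hmem : O.act x ω₀ ∈ ball O.nb k ω₀ := O.act_mem_ball (mem_wordsLE.1 hx)
    filter_upwards [O.eventually_eq_iff (φ (e ⟨_, hmem⟩)) x ω₀] with ω hω
    exact ⟨_, hω.2 (by simp [φ, hψ])⟩
  filter_upwards [(wordsLE L k).eventually_all.2 h,
    eventually_all.2 fun i => eventually_all.2 fun j => O.eventually_eq_iff (φ i) (φ j) ω₀,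
    O.eventually_eq_iff (φ (e ⟨ω₀, mem_ball_self _ _ _⟩)) [] ω₀] with ω h1 h2 h3
  refine ⟨fun i => hψlen _, fun i j hij => hinj ((h2 i j).1 hij), ?_,
    h3.2 (by simp [φ, hψ, act_nil])⟩
  ext v
  simp only [Finset.mem_image, Finset.mem_univ, true_and, mem_ball]
  constructor
  · rintro ⟨w, hw, rfl⟩; exact h1 w (mem_wordsLE.2 hw)
  · rintro ⟨i, rfl⟩; exact ⟨_, hψlen _, rfl⟩

end Model

end Vale.Agent.P078.Any
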