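import Vale.Agent.P078.Any.Basic

/-!
A direction on three heavy colours, balanced for the weights and for given self energies.
-/

namespace Vale.Agent.P078.Any

/-- Three numbers orthogonal to the constants and to a given vector. -/
theorem exists_balanced (h₁ h₂ h₃ : ℝ) : ∃ v₁ v₂ v₃ : ℝ,
    v₁ + v₂ + v₃ = 0 ∧ v₁ * h₁ + v₂ * h₂ + v₃ * h₃ = 0 ∧ 0 < max |v₁| (max |v₂| |v₃|) := by
  by_cases h : h₂ = h₃ ∧ h₃ = h₁
  · refine ⟨1, -1, 0, by ring, ?_, by norm_num⟩
    rw [h.1, h.2]
    ring
  · refine ⟨h₂ - h₃, h₃ - h₁, h₁ - h₂, by ring, by ring, ?_⟩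
    rw [lt_max_iff, lt_max_iff, abs_pos, abs_pos, abs_pos, sub_ne_zero, sub_ne_zero]
    by_contra hc
    simp only [not_or, ne_eq, not_not] at hc
    exact h ⟨hc.1, hc.2.1⟩

/-- A direction of full size, exactly balanced. -/
theorem exists_dir {r : ℕ} {eps : ℝ} (heps : 0 < eps) {qu : Fin r → ℝ} (hq : Three eps qu)
    (hh : Fin r → ℝ) :
    ∃ x : Fin r → ℝ, (∀ c, |x c| ≤ 1) ∧ ∑ c, qu c * x c = 0 ∧ ∑ c, qu c * x c * hh c = 0 ∧
      eps ^ 2 ≤ ∑ c, (qu c * x c) ^ 2 := by
  classical
  obtain ⟨a, b, c, hab, hac, hbc, ha, hb, hc⟩ := hq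
  obtain ⟨u, v, t, hsum, hbal, hpos⟩ := exists_balanced (hh a) (hh b) (hh c)
  set M := max |u| (max |v| |t|)
  set s := eps / M
  have hs : 0 < s := div_pos heps hpos
  let y : Fin r → ℝ := fun d => if d = a then s * u else if d = b then s * v else
    if d = c then s * t else 0
  have hy : ∀ d, |y d| ≤ eps := by
    intro d
    have h1 : ∀ e, |e| ≤ M → |s * e| ≤ eps := fun e he => by
      rw [abs_mul, abs_of_pos hs, ← div_mul_cancel₀ eps hpos.ne']
      exact mul_le_mul_of_nonneg_left he hs.le
    simp only [y]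
    split_ifs
    · exact h1 _ (le_max_left _ _)
    · exact h1 _ ((le_max_left _ _).trans (le_max_right _ _))
    · exact h1 _ ((le_max_right _ _).trans (le_max_right _ _))
    · simpa using heps.le
  have hy0 : ∀ d, y d ≠ 0 → eps < qu d := by
    intro d hd
    simp only [y] at hd
    split_ifs at hd with e1 e2 e3
    · exact e1 ▸ ha
    · exact e2 ▸ hb
    · exact e3 ▸ hc
    · exact absurd rfl hd
  refine ⟨fun d => y d / qu d, fun d => ?_, ?_, ?_, ?_⟩
  · rcases eq_or_ne (y d) 0 with e | e
    · simp [e]
    · have hd := hy0 d e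
      rw [abs_div, abs_of_pos (heps.trans hd), div_le_one (heps.trans hd)]
      exact (hy d).trans hd.le
  all_goals
    have hqy : ∀ d, qu d * (y d / qu d) = y d := fun d => by
      rcases eq_or_ne (y d) 0 with e | e
      · simp [e]
      · exact mul_div_cancel₀ _ (heps.trans (hy0 d e)).ne'
    simp only [hqy]
  · rw [show y = fun d => (if d = a then s * u else 0) + (if d = b then s * v else 0) +
      (if d = c then s * t else 0) from funext fun d => by
        simp only [y]; split_ifs <;> simp_all]
    simp only [Finset.sum_add_distrib, Finset.sum_ite_eq', Finset.mem_univ, if_true]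
    linear_combination s * hsum
  · rw [show (fun d => y d * hh d) = fun d => (if d = a then s * u * hh a else 0) +
      (if d = b then s * v * hh b else 0) + (if d = c then s * t * hh c else 0) from
        funext fun d => by simp only [y]; split_ifs <;> simp_all]
    simp only [Finset.sum_add_distrib, Finset.sum_ite_eq', Finset.mem_univ, if_true]
    linear_combination s * hbal
  · have key : ∀ d e, y d = s * e → |e| = M → eps ^ 2 ≤ ∑ c, y c ^ 2 := fun d e he hM => by
      refine le_trans (le_of_eq ?_) (Finset.single_le_sum (fun c _ => sq_nonneg (y c))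
        (Finset.mem_univ d))
      rw [he, mul_pow, ← sq_abs e, hM, ← mul_pow, div_mul_cancel₀ eps hpos.ne']
    rcases max_choice |u| (max |v| |t|) with h | h
    · exact key a u (by simp [y]) h.symm
    · rcases max_choice |v| |t| with h' | h'
      · exact key b v (by simp [y, hab.symm]) (h.trans h').symm
      · exact key c t (by simp [y, hac.symm, hbc.symm]) (h.trans h').symm

end Vale.Agent.P078.Any
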