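import Vale.Agent.P078.Any.RandomPaving.Kernel
import Vale.Agent.P078.Any.RandomPaving.Direction
import Mathlib.Analysis.Convex.StdSimplex
import Mathlib.Topology.Compactness.Compact

/-!
The decision of the rule in one labelled ball: read from the entries at one base point, it is
admissible for every law at all nearby base points.
-/

namespace Vale.Agent.P078.Any

open Function Filter Topology Finset

set_option linter.unusedSectionVars false

/-- A level at which no window is negative has positive windows above it. -/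
theorem Sys.pos_of_nonneg {V : Type} [DecidableEq V] {r : ℕ} (S : Sys V r) {w : V → Fin r → ℝ}
    {U : Finset V} (hw : LawOn w U) {a b : ℝ} (hab : a < b)
    (h : ∀ T ⊆ U, 0 ≤ S.F w T fun _ => a) : ∀ T ⊆ U, 0 < S.F w T fun _ => b := by
  suffices H : ∀ T, T ⊆ U →
      (∀ A ⊆ T, 0 ≤ S.F w T (A.piecewise (fun _ => b) fun _ => a)) ∧
        0 < S.F w T fun _ => b from fun T hT => (H T hT).2
  intro T
  induction T using Finset.strongInduction with
  | _ T ih =>
    intro hT
    have hwT : LawOn w T := fun v hv => hw v (hT hv)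
    have step : ∀ u ∈ T, ∀ A ⊆ T, u ∉ A →
        S.F w T ((insert u A).piecewise (fun _ => b) fun _ => a) =
          S.F w T (A.piecewise (fun _ => b) fun _ => a) +
            (b - a) * S.F w (T.erase u) (A.piecewise (fun _ => b) fun _ => a) := by
      intro u hu A _ hA
      rw [Finset.piecewise_insert, S.affine w T _ hwT u hu, Finset.piecewise_eq_of_notMem _ _ _ hA]
    have hsub : ∀ u ∈ T, T.erase u ⊂ T := fun u hu => Finset.erase_ssubset hu
    have h1 : ∀ A ⊆ T, 0 ≤ S.F w T (A.piecewise (fun _ => b) fun _ => a) := by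
      intro A
      induction A using Finset.induction with
      | empty => exact fun _ => by simpa using h T hT
      | @insert u A hu ihA =>
        intro hA
        have huT := hA (Finset.mem_insert_self u A)
        have hAT := (Finset.subset_insert u A).trans hA
        rw [step u huT A hAT hu]
        have := (ih _ (hsub u huT) ((Finset.erase_subset u T).trans hT)).1 A
          fun x hx => Finset.mem_erase.2 ⟨fun e => hu (e ▸ hx), hAT hx⟩
        have := ihA hAT
        nlinarith
    refine ⟨h1, ?_⟩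
    rcases T.eq_empty_or_nonempty with rfl | ⟨u, hu⟩
    · rw [S.empty]; exact one_pos
    · have e : (S.F w T fun _ => b) =
          S.F w T ((insert u (T.erase u)).piecewise (fun _ => b) fun _ => a) :=
        S.congr _ _ _ _ _ (fun _ _ => rfl) fun v hv => by
          rw [Finset.insert_erase hu, Finset.piecewise_eq_of_mem _ _ _ hv]
      rw [e, step u hu _ (Finset.erase_subset u T) (Finset.notMem_erase u T)]
      have h2 := (ih _ (hsub u hu) ((Finset.erase_subset u T).trans hT)).2
      have e2 : S.F w (T.erase u) ((T.erase u).piecewise (fun _ => b) fun _ => a) =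
          S.F w (T.erase u) fun _ => b :=
        S.congr _ _ _ _ _ (fun _ _ => rfl) fun v hv => by rw [Finset.piecewise_eq_of_mem _ _ _ hv]
      rw [e2]
      have := h1 _ (Finset.erase_subset u T)
      nlinarith [mul_pos (sub_pos.2 hab) h2]

namespace RandomPaving

variable {Ω : Type} [TopologicalSpace Ω] {L r : ℕ}

/-- A decision read in a labelled ball. -/
structure Dec (L r : ℕ) where
  /-- The number of points. -/
  n : ℕ
  /-- Their labels. -/
  word : Fin n → List (Fin L)
  /-- The centre. -/
  root : Fin n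
  /-- The direction, if the centre moves. -/
  choice : (Fin n → Fin r → ℝ) → Option (Fin r → ℝ)

variable [DecidableEq Ω]

/-- The decision is admissible at a base point, for every law. -/
def DecOK (O : Model Ω L) (S : Sys Ω r) (P : Par) (η : ℝ) (j : ℕ) (D : Dec L r) (ω : Ω) : Prop :=
  O.IsChart P.L D.word D.root ω ∧ ∀ q : Ω → Fin r → ℝ, (∀ U, LawOn q U) →
    (∀ x, D.choice (fun i => q (O.act (D.word i) ω)) = some x → S.MayMove P j q ω ∧
      DirOK P.eps η (q ω) (S.hc q (ball S.nb P.L ω) (fun _ => P.level j + P.g) ω) x) ∧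
    (D.choice (fun i => q (O.act (D.word i) ω)) = none → ¬ S.MustMove P j q ω)

variable {n : ℕ} (O : Model Ω L) (P : Par) (j : ℕ) (φ : Fin n → List (Fin L)) (root : Fin n)

/-- The expected determinant of some labelled points at a constant level. -/
noncomputable def G (y : Ω) (p : Fin n → Fin r → ℝ) (T : Finset (Fin n)) (a : ℝ) : ℝ :=
  O.locF (fun i : T => φ i) y (fun i => p i) fun _ => a

/-- The cross multiplied drop of the resolvent entry at the centre. -/
noncomputable def drop (y : Ω) (p : Fin n → Fin r → ℝ) : ℝ :=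
  G O φ y p (univ.erase root) (P.level j + P.g / 4) * G O φ y p univ (P.level j + P.g / 2) -
    G O φ y p (univ.erase root) (P.level j + P.g / 2) * G O φ y p univ (P.level j + P.g / 4)

/-- The weakly stated test at the level `a` with the constant `c`. -/
def Weak (a c : ℝ) (y : Ω) (p : Fin n → Fin r → ℝ) : Prop :=
  (∀ T, 0 ≤ G O φ y p T (P.level j + a)) ∧
    G O φ y p (univ.erase root) (P.level j + P.g / 4) ≤
      c * P.Lam * G O φ y p univ (P.level j + P.g / 4) ∧
    drop O P j φ root y p ≤ c * P.Lam * P.g *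
      (G O φ y p univ (P.level j + P.g / 4) * G O φ y p univ (P.level j + P.g / 2))

/-- The strictly stated test at the level `a` with the constant `c`. -/
def Strict (a c : ℝ) (y : Ω) (p : Fin n → Fin r → ℝ) : Prop :=
  (∀ T, 0 < G O φ y p T (P.level j + a)) ∧
    G O φ y p (univ.erase root) (P.level j + P.g / 4) <
      c * P.Lam * G O φ y p univ (P.level j + P.g / 4) ∧
    drop O P j φ root y p < c * P.Lam * P.g *
      (G O φ y p univ (P.level j + P.g / 4) * G O φ y p univ (P.level j + P.g / 2))

/-- The self energy of a colour at the centre. -/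
noncomputable def hh (y : Ω) (p : Fin n → Fin r → ℝ) (c : Fin r) : ℝ :=
  P.level j + P.g - G O φ y (update p root (Pi.single c 1)) univ (P.level j + P.g) /
    G O φ y p (univ.erase root) (P.level j + P.g)

theorem continuous_G (T : Finset (Fin n)) (a : ℝ) :
    Continuous fun v : Ω × (Fin n → Fin r → ℝ) => G O φ v.1 v.2 T a :=
  O.continuous_locF _ continuous_fst
    (continuous_pi fun i : T => (continuous_apply (i : Fin n)).comp continuous_snd) _

attribute [local irreducible] G

theorem continuous_drop : Continuous fun v : Ω × (Fin n → Fin r → ℝ) =>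
    drop O P j φ root v.1 v.2 := by
  have h := fun T a => continuous_G (r := r) O φ T a
  exact ((h _ _).mul (h _ _)).sub ((h _ _).mul (h _ _))

theorem isClosed_weak (a c : ℝ) :
    IsClosed {v : Ω × (Fin n → Fin r → ℝ) | Weak O P j φ root a c v.1 v.2} := by
  have h := fun T a => continuous_G (r := r) O φ T a
  simp only [Weak, Set.ofPred_and, Set.ofPred_forall]
  exact (isClosed_iInter fun T => isClosed_le continuous_const (h _ _)).inter
    ((isClosed_le (h _ _) ((h _ _).const_mul _)).inter
      (isClosed_le (continuous_drop O P j φ root) (((h _ _).mul (h _ _)).const_mul _)))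

theorem isOpen_strict (a c : ℝ) :
    IsOpen {v : Ω × (Fin n → Fin r → ℝ) | Strict O P j φ root a c v.1 v.2} := by
  have h := fun T a => continuous_G (r := r) O φ T a
  simp only [Strict, Set.ofPred_and, Set.ofPred_forall]
  exact (isOpen_iInter_of_finite fun T => isOpen_lt continuous_const (h _ _)).inter
    ((isOpen_lt (h _ _) ((h _ _).const_mul _)).inter
      (isOpen_lt (continuous_drop O P j φ root) (((h _ _).mul (h _ _)).const_mul _)))

variable {O P j φ root} {S : Sys Ω r}

theorem F_chart (hF : S.F = O.kern.F) {k : ℕ} {y : Ω} (hy : O.IsChart k φ root y)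
    (q : Ω → Fin r → ℝ) (T : Finset (Fin n)) (a : ℝ) :
    S.F q (T.image fun i => O.act (φ i) y) (fun _ => a) =
      G O φ y (fun i => q (O.act (φ i) y)) T a := by
  rw [hF, G, ← O.kern_F_image (fun i : T => φ i) y
    (fun i i' h => Subtype.ext (hy.injective h)) q fun _ => a]
  congr 1
  ext v
  simp

/-- The laws on the labelled points. -/
def laws (n r : ℕ) : Set (Fin n → Fin r → ℝ) := Set.univ.pi fun _ => stdSimplex ℝ (Fin r)

theorem isCompact_laws : IsCompact (laws n r) :=
  isCompact_univ_pi fun _ => isCompact_stdSimplex ℝ (Fin r)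

theorem G_pos_of_nonneg (hF : S.F = O.kern.F) {k : ℕ} {y : Ω} (hy : O.IsChart k φ root y)
    {p : Fin n → Fin r → ℝ} (hp : p ∈ laws n r) {a b : ℝ} (hab : a < b)
    (h : ∀ T, 0 ≤ G O φ y p T a) : ∀ T, 0 < G O φ y p T b := by
  classical
  let q : Ω → Fin r → ℝ := fun v =>
    if hv : ∃ i, O.act (φ i) y = v then p hv.choose else p root
  have hq : ∀ U, LawOn q U := fun U v _ => by
    simp only [q]
    split_ifs <;> exact hp _ (Set.mem_univ _)
  have hqp : (fun i => q (O.act (φ i) y)) = p := funext fun i => by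
    have hv : ∃ i', O.act (φ i') y = O.act (φ i) y := ⟨i, rfl⟩
    simp only [q, dif_pos hv]
    exact congrArg p (hy.injective hv.choose_spec)
  intro T
  have := S.pos_of_nonneg (w := q) (U := Finset.univ.image fun i => O.act (φ i) y) (hq _) hab
    (fun T' hT' => by
      obtain ⟨T, -, rfl⟩ := Finset.subset_image_iff.1 hT'
      rw [F_chart hF hy, hqp]
      exact h T) _ (Finset.image_subset_image (Finset.subset_univ T))
  rwa [F_chart hF hy, hqp] at this

theorem ball_chart (hnb : S.nb = O.nb) {k : ℕ} {y : Ω} (hy : O.IsChart k φ root y) :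
    ball S.nb k y = Finset.univ.image (fun i => O.act (φ i) y) ∧
      (ball S.nb k y).erase y = (univ.erase root).image fun i => O.act (φ i) y := by
  refine ⟨by rw [hnb, hy.image_eq], ?_⟩
  rw [Finset.image_erase hy.injective, hy.base, hnb, hy.image_eq]

theorem res_chart (hnb : S.nb = O.nb) (hF : S.F = O.kern.F) {k : ℕ} {y : Ω}
    (hy : O.IsChart k φ root y) (q : Ω → Fin r → ℝ) (a : ℝ) :
    S.Res q (ball S.nb k y) (fun _ => a) y =
      G O φ y (fun i => q (O.act (φ i) y)) (univ.erase root) a /
        G O φ y (fun i => q (O.act (φ i) y)) univ a := by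
  rw [Sys.Res, (ball_chart hnb hy).2, (ball_chart hnb hy).1, F_chart hF hy, F_chart hF hy]

theorem hc_chart (hnb : S.nb = O.nb) (hF : S.F = O.kern.F) {y : Ω}
    (hy : O.IsChart P.L φ root y) (q : Ω → Fin r → ℝ) (c : Fin r) :
    S.hc q (ball S.nb P.L y) (fun _ => P.level j + P.g) y c =
      hh O P j φ root y (fun i => q (O.act (φ i) y)) c := by
  rw [Sys.hc, (ball_chart hnb hy).2, (ball_chart hnb hy).1, F_chart hF hy, F_chart hF hy, hh]
  congr 3
  funext i
  rcases eq_or_ne i root with rfl | hi
  · rw [hy.base, update_self, update_self]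
  · rw [update_of_ne hi, update_of_ne]
    exact fun e => hi (hy.injective (e.trans hy.base.symm))

theorem mayMove_chart (hnb : S.nb = O.nb) (hF : S.F = O.kern.F) {y : Ω}
    (hy : O.IsChart P.L φ root y) {q : Ω → Fin r → ℝ}
    (h : Strict O P j φ root (P.g / 4) 2 y fun i => q (O.act (φ i) y))
    (hY : 0 < G O φ y (fun i => q (O.act (φ i) y)) univ (P.level j + P.g / 2)) :
    S.MayMove P j q y := by
  obtain ⟨h1, h2, h3⟩ := h
  have h4 := h1 univ
  refine ⟨fun T hT => ?_, ?_, ?_⟩
  · rw [(ball_chart hnb hy).1] at hT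
    obtain ⟨T, -, rfl⟩ := Finset.subset_image_iff.1 hT
    rw [F_chart hF hy]
    exact h1 T
  · rw [res_chart hnb hF hy, div_le_iff₀ h4]
    exact h2.le
  · rw [res_chart hnb hF hy, res_chart hnb hF hy, div_sub_div _ _ h4.ne' hY.ne',
      div_le_iff₀ (mul_pos h4 hY)]
    unfold drop at h3
    linarith

theorem weak_of_mustMove (hnb : S.nb = O.nb) (hF : S.F = O.kern.F) (hg : 0 < P.g) {y : Ω}
    (hy : O.IsChart P.L φ root y) {q : Ω → Fin r → ℝ}
    (hq : (fun i => q (O.act (φ i) y)) ∈ laws n r) (h : S.MustMove P j q y) :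
    Weak O P j φ root (P.g / 8) 1 y fun i => q (O.act (φ i) y) := by
  obtain ⟨-, h1, h2, h3⟩ := h
  have h0 : ∀ T, 0 ≤ G O φ y (fun i => q (O.act (φ i) y)) T (P.level j + P.g / 8) := fun T => by
    rw [← F_chart hF hy]
    exact h1 _ ((ball_chart hnb hy).1 ▸ Finset.image_subset_image (Finset.subset_univ T))
  have h4 := G_pos_of_nonneg hF hy hq (b := P.level j + P.g / 4) (by linarith) h0 univ
  have hY := G_pos_of_nonneg hF hy hq (b := P.level j + P.g / 2) (by linarith) h0 univ
  rw [res_chart hnb hF hy, div_le_iff₀ h4] at h2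
  rw [res_chart hnb hF hy, res_chart hnb hF hy, div_sub_div _ _ h4.ne' hY.ne',
    div_le_iff₀ (mul_pos h4 hY)] at h3
  refine ⟨h0, by linarith, ?_⟩
  unfold drop
  linarith

theorem strict_of_weak (hF : S.F = O.kern.F) (hg : 0 < P.g) (hLam : 0 < P.Lam) {k : ℕ} {y : Ω}
    (hy : O.IsChart k φ root y) {p : Fin n → Fin r → ℝ} (hp : p ∈ laws n r) {a b c c' : ℝ}
    (ha : a < P.g / 4) (hab : a < b) (hc : c < c') (hw : Weak O P j φ root a c y p) :
    Strict O P j φ root b c' y p ∧ 0 < G O φ y p univ (P.level j + P.g / 2) ∧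
      ∀ T, 0 < G O φ y p T (P.level j + P.g) := by
  obtain ⟨h1, h2, h3⟩ := hw
  have h4 := G_pos_of_nonneg hF hy hp (b := P.level j + P.g / 4) (by linarith) h1 univ
  have hY := G_pos_of_nonneg hF hy hp (b := P.level j + P.g / 2) (by linarith) h1 univ
  refine ⟨⟨G_pos_of_nonneg hF hy hp (by linarith) h1, h2.trans_lt ?_, h3.trans_lt ?_⟩, hY,
    G_pos_of_nonneg hF hy hp (by linarith) h1⟩
  · exact mul_lt_mul_of_pos_right (mul_lt_mul_of_pos_right hc hLam) h4
  · exact mul_lt_mul_of_pos_right
      (mul_lt_mul_of_pos_right (mul_lt_mul_of_pos_right hc hLam) hg) (mul_pos h4 hY)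

/-- Nearby, a point that must move passes the strict test at the base point. -/
theorem eventually_strict (hF : S.F = O.kern.F) (hg : 0 < P.g) (hLam : 0 < P.Lam) {k : ℕ}
    {ω₀ : Ω} (h₀ : O.IsChart k φ root ω₀) :
    ∀ᶠ y in 𝓝 ω₀, ∀ p ∈ laws n r, Weak O P j φ root (P.g / 8) 1 y p →
      Strict O P j φ root (3 * P.g / 16) (3 / 2) ω₀ p := by
  refine isCompact_laws.eventually_forall_of_forall_eventually fun p hp => ?_
  by_cases hs : Weak O P j φ root (P.g / 8) 1 ω₀ p
  · have hS : Strict O P j φ root (3 * P.g / 16) (3 / 2) ω₀ p :=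
      (strict_of_weak hF hg hLam h₀ hp (by linarith) (by linarith) (by norm_num) hs).1
    have ho : IsOpen {v : Ω × (Fin n → Fin r → ℝ) |
        Strict O P j φ root (3 * P.g / 16) (3 / 2) ω₀ v.2} :=
      (isOpen_strict (r := r) O P j φ root _ _).preimage
        (continuous_const.prodMk continuous_snd)
    filter_upwards [ho.mem_nhds (show (ω₀, p) ∈ _ from hS)] with v hv
    exact fun _ => hv
  · filter_upwards [(isClosed_weak (r := r) O P j φ root _ _).isOpen_compl.mem_nhds
      (show (ω₀, p) ∈ {v : Ω × (Fin n → Fin r → ℝ) |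
        Weak O P j φ root (P.g / 8) 1 v.1 v.2}ᶜ from hs)] with v hv
    exact fun h => absurd h hv

theorem continuousAt_hh (c : Fin r) {v₀ : Ω × (Fin n → Fin r → ℝ)}
    (h : G O φ v₀.1 v₀.2 (univ.erase root) (P.level j + P.g) ≠ 0) :
    ContinuousAt (fun v : Ω × (Fin n → Fin r → ℝ) => hh O P j φ root v.1 v.2 c) v₀ := by
  have h1 : Continuous fun v : Ω × (Fin n → Fin r → ℝ) =>
      G O φ v.1 (update v.2 root (Pi.single c 1)) univ (P.level j + P.g) :=
    (continuous_G (r := r) O φ univ (P.level j + P.g)).comp₂ continuous_fst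
      (continuous_snd.update root continuous_const)
  exact continuousAt_const.sub (h1.continuousAt.div
    (continuous_G (r := r) O φ (univ.erase root) (P.level j + P.g)).continuousAt h)

attribute [local irreducible] hh

/-- Nearby, a point passing the test at the base point may move, with almost the same self
energies. -/
theorem eventually_near (hF : S.F = O.kern.F) (hg : 0 < P.g) (hLam : 0 < P.Lam) {k : ℕ}
    {ω₀ : Ω} (h₀ : O.IsChart k φ root ω₀) {η : ℝ} (hη : 0 < η) :
    ∀ᶠ y in 𝓝 ω₀, ∀ p ∈ laws n r ∩ {p | Weak O P j φ root (3 * P.g / 16) (3 / 2) ω₀ p},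
      Strict O P j φ root (P.g / 4) 2 y p ∧
        0 < G O φ y p univ (P.level j + P.g / 2) ∧
          ∀ c, |hh O P j φ root y p c - hh O P j φ root ω₀ p c| < η := by
  have hC : IsCompact (laws n r ∩ {p | Weak O P j φ root (3 * P.g / 16) (3 / 2) ω₀ p}) :=
    isCompact_laws.inter_right
      ((isClosed_weak (r := r) O P j φ root _ _).preimage (continuous_const.prodMk continuous_id))
  refine hC.eventually_forall_of_forall_eventually fun p hp => ?_
  obtain ⟨hp, hw⟩ := hp
  obtain ⟨hS, hY, hpX⟩ := strict_of_weak hF hg hLam h₀ hp (b := P.g / 4) (c' := 2) (by linarith)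
    (by linarith) (by norm_num) hw
  have hcont : ∀ c, ∀ᶠ v in 𝓝 (ω₀, p),
      |hh O P j φ root v.1 v.2 c - hh O P j φ root ω₀ v.2 c| < η := fun c => by
    have hne : G O φ ω₀ p (univ.erase root) (P.level j + P.g) ≠ 0 := (hpX _).ne'
    have hd := continuousAt_hh (O := O) (P := P) (j := j) (φ := φ) (root := root) c
      (v₀ := (ω₀, p)) hne
    have hd₀ : ContinuousAt (fun v : Ω × (Fin n → Fin r → ℝ) =>
        hh O P j φ root ω₀ v.2 c) (ω₀, p) :=
      ContinuousAt.comp (g := fun v : Ω × (Fin n → Fin r → ℝ) => hh O P j φ root v.1 v.2 c)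
        (f := fun v : Ω × (Fin n → Fin r → ℝ) => (ω₀, v.2)) hd (continuous_const.prodMk continuous_snd).continuousAt
    have h0 : |hh O P j φ root (ω₀, p).1 (ω₀, p).2 c - hh O P j φ root ω₀ (ω₀, p).2 c| < η := by
      rw [sub_self, abs_zero]
      exact hη
    exact (hd.sub hd₀).abs.eventually (gt_mem_nhds h0)
  filter_upwards [(isOpen_strict (r := r) O P j φ root _ _).mem_nhds (show (ω₀, p) ∈ _ from hS),
    (continuous_G (r := r) O φ univ (P.level j + P.g / 2)).continuousAt.eventually
      (lt_mem_nhds (show 0 < G O φ (ω₀, p).1 (ω₀, p).2 univ (P.level j + P.g / 2) from hY)),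
    eventually_all.2 hcont] with v h1 h2 h3
  exact ⟨h1, h2, h3⟩

variable [CompactSpace Ω] [T2Space Ω]

/-- Near every point one decision is admissible. -/
theorem exists_decOK (hnb : S.nb = O.nb) (hF : S.F = O.kern.F) (hg : 0 < P.g) (hLam : 0 < P.Lam)
    (heps : 0 < P.eps) {η : ℝ} (hη : 0 < η) (j : ℕ) (ω₀ : Ω) :
    ∃ D : Dec L r, ∀ᶠ y in 𝓝 ω₀, DecOK O S P η j D y := by
  classical
  obtain ⟨n, φ, root, hev⟩ := O.exists_chart ω₀ P.L
  have h₀ := hev.self_of_nhds
  have hA := eventually_strict (j := j) hF hg hLam h₀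
  have hB := eventually_near (j := j) hF hg hLam h₀ hη
  -- the decision
  let choice : (Fin n → Fin r → ℝ) → Option (Fin r → ℝ) := fun p =>
    if h : Strict O P j φ root (3 * P.g / 16) (3 / 2) ω₀ p ∧ Three P.eps (p root) then
      some (exists_dir heps h.2 (hh O P j φ root ω₀ p)).choose else none
  refine ⟨⟨n, φ, root, choice⟩, ?_⟩
  filter_upwards [hev, hA, hB] with y hy hAy hBy
  refine ⟨hy, fun q hq => ?_⟩
  set p : Fin n → Fin r → ℝ := fun i => q (O.act (φ i) y)
  have hp : p ∈ laws n r := fun i _ => hq {O.act (φ i) y} _ (Finset.mem_singleton_self _)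
  have hroot : p root = q y := congrArg q hy.base
  refine ⟨fun x hx => ?_, fun hx hmust => ?_⟩
  · simp only [choice] at hx
    split_ifs at hx with h
    obtain rfl := Option.some.inj hx
    obtain ⟨d1, d2, d3, d4⟩ := (exists_dir heps h.2 (hh O P j φ root ω₀ p)).choose_spec
    obtain ⟨hS, hY, hcl⟩ := hBy p ⟨hp, fun T => (h.1.1 T).le, h.1.2.1.le, h.1.2.2.le⟩
    refine ⟨mayMove_chart hnb hF hy hS hY, ?_⟩
    rw [← hroot, show S.hc q (ball S.nb P.L y) (fun _ => P.level j + P.g) y =
      hh O P j φ root y p from funext (hc_chart hnb hF hy q)]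
    refine ⟨d1, d2, ?_, d4⟩
    set x := (exists_dir heps h.2 (hh O P j φ root ω₀ p)).choose
    have e : ∑ c, p root c * x c * hh O P j φ root y p c =
        ∑ c, p root c * x c * (hh O P j φ root y p c - hh O P j φ root ω₀ p c) := by
      simp only [mul_sub, Finset.sum_sub_distrib, d3, sub_zero]
    rw [e]
    refine (Finset.abs_sum_le_sum_abs _ _).trans ?_
    refine (Finset.sum_le_sum (g := fun c => p root c * η) fun c _ => ?_).trans
      (le_of_eq (by rw [← Finset.sum_mul, (hp root (Set.mem_univ _)).2, one_mul]))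
    rw [abs_mul, abs_mul, abs_of_nonneg ((hp root (Set.mem_univ _)).1 c)]
    exact mul_le_mul (mul_le_of_le_one_right ((hp root (Set.mem_univ _)).1 c) (d1 c))
      (hcl c).le (abs_nonneg _) ((hp root (Set.mem_univ _)).1 c)
  · simp only [choice] at hx
    split_ifs at hx with h
    refine h ⟨hAy p hp (weak_of_mustMove hnb hF hg hy hp hmust), ?_⟩
    rw [hroot]
    exact hmust.1

end RandomPaving

end Vale.Agent.P078.Any
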