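import Vale.Agent.P078.Any.RandomPaving.Invariance
import Vale.Agent.P078.Any.RandomPaving.Chart

/-!
The history of a point: the laws after some rounds as a function of the seeds at its translates,
with a frame of colours at every point, and the rule that this history follows.
-/

namespace Vale.Agent.P078.Any.RandomPaving

open Function Filter Topology Finset

set_option linter.unusedSectionVars false

variable {Ω : Type} [TopologicalSpace Ω] {L r m : ℕ}

/-- A seed: the coins of the rounds and a frame of colours. -/
abbrev Seed (m r : ℕ) : Type := (Fin m → Bool × Bool) × Equiv.Perm (Fin r)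

/-- The coin of a round. -/
def coin (s : Seed m r) (j : ℕ) : Bool × Bool := if h : j < m then s.1 ⟨j, h⟩ else (false, false)

/-- The seed in renamed colours. -/
def renameSeed (σ : Equiv.Perm (Fin r)) (s : Seed m r) : Seed m r := (s.1, σ * s.2)

theorem coin_renameSeed (σ : Equiv.Perm (Fin r)) (s : Seed m r) (j : ℕ) :
    coin (renameSeed σ s) j = coin s j := rfl

/-- One move of a law. -/
noncomputable def move (P : Par) (o : Option (Fin r → ℝ)) (b : Bool × Bool) (q : Fin r → ℝ)
    (c : Fin r) : ℝ :=
  if b.1 = true then
    match o with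
    | some x => q c * (1 + sgn b.2 * Real.sqrt P.h * x c)
    | none => q c
  else q c

variable (O : Model Ω L) (P : Par) (D : ℕ → Ω → Dec L r)

/-- The rule of the decisions, each read in the frame of its point. -/
noncomputable def ruleOf (τ : Ω → Equiv.Perm (Fin r)) : Rule Ω r := fun j q u =>
  ((D j u).choice fun i d => q (O.act ((D j u).word i) u) (τ u d)).map
    fun x d => x ((τ u).symm d)

/-- The laws after some rounds, from the seeds at the translates. -/
noncomputable def hist : ℕ → Ω → (List (Fin L) → Seed m r) → Fin r → ℝ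
  | 0, _, _ => fun _ => 1 / r
  | j + 1, ω, a => move P
      (((D j ω).choice fun i d =>
        hist j (O.act ((D j ω).word i) ω) (fun y => a (y ++ (D j ω).word i)) ((a []).2 d)).map
        fun x d => x ((a []).2.symm d))
      (coin (a []) j) (hist j ω a)

/-- The history is what the rule does. -/
theorem qAt_eq_hist (π : Ω → Seed m r) : ∀ j u,
    qAt P (ruleOf O D fun v => (π v).2) (fun i v => coin (π v) i) j u =
      hist O P D j u fun y => π (O.act y u)
  | 0, _ => rfl
  | j + 1, u => by
    funext c
    have e : ∀ v : Ω, qAt P (ruleOf O D fun v => (π v).2) (fun i v => coin (π v) i) j v =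
        hist O P D j v fun y => π (O.act y v) := qAt_eq_hist π j
    simp only [qAt, next, ruleOf, hist, move, e, Model.act_append, Model.act_nil]
    split_ifs
    · generalize Option.map _ _ = o
      cases o <;> rfl
    · rfl

theorem hist_congr (hlen : ∀ j ω i, ((D j ω).word i).length ≤ P.L) :
    ∀ j ω (a a' : List (Fin L) → Seed m r), (∀ x, x.length ≤ j * P.L → a x = a' x) →
      hist O P D j ω a = hist O P D j ω a'
  | 0, _, _, _, _ => rfl
  | j + 1, ω, a, a', h => by
    have e : ∀ i, hist O P D j (O.act ((D j ω).word i) ω) (fun y => a (y ++ (D j ω).word i)) =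
        hist O P D j (O.act ((D j ω).word i) ω) fun y => a' (y ++ (D j ω).word i) := fun i =>
      hist_congr hlen j _ _ _ fun y hy => h _ (by
        rw [List.length_append, Nat.succ_mul]
        have := hlen j ω i
        omega)
    simp only [hist, e, h [] (Nat.zero_le _),
      hist_congr hlen j ω a a' fun x hx => h x (hx.trans (Nat.mul_le_mul_right _ j.le_succ))]

theorem hist_rename (σ : Equiv.Perm (Fin r)) : ∀ j ω (a : List (Fin L) → Seed m r) (c : Fin r),
    hist O P D j ω (fun x => renameSeed σ (a x)) (σ c) = hist O P D j ω a c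
  | 0, _, _, _ => rfl
  | j + 1, ω, a, c => by
    have ih := hist_rename σ j
    simp only [hist, coin_renameSeed]
    have e : (fun i d => hist O P D j (O.act ((D j ω).word i) ω)
        (fun y => renameSeed σ (a (y ++ (D j ω).word i))) ((renameSeed σ (a [])).2 d)) =
        fun i d => hist O P D j (O.act ((D j ω).word i) ω) (fun y => a (y ++ (D j ω).word i))
          ((a []).2 d) := by
      funext i d
      exact ih _ _ _
    rw [e]
    cases (D j ω).choice fun i d => hist O P D j (O.act ((D j ω).word i) ω)
      (fun y => a (y ++ (D j ω).word i)) ((a []).2 d) with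
    | none => simp only [Option.map_none, move, ih]
    | some x =>
      have hσ : (renameSeed σ (a [])).2.symm (σ c) = (a []).2.symm c := by
        rw [Equiv.symm_apply_eq]
        simp [renameSeed]
      simp only [Option.map_some, move, ih, hσ]

theorem isLocallyConstant_hist (hD : ∀ j, IsLocallyConstant (D j)) :
    ∀ j, IsLocallyConstant (hist (m := m) O P D j)
  | 0 => by
    rw [IsLocallyConstant.iff_eventually_eq]
    exact fun _ => Eventually.of_forall fun _ => rfl
  | j + 1 => by
    have ih := isLocallyConstant_hist hD j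
    rw [IsLocallyConstant.iff_eventually_eq]
    intro ω₀
    filter_upwards [(hD j).eventually_eq ω₀, ih.eventually_eq ω₀,
      eventually_all.2 fun i => (ih.comp_continuous
        (O.continuous_act ((D j ω₀).word i))).eventually_eq ω₀] with ω h1 h2 h3
    funext a
    simp only [hist, h2]
    rw [h1]
    simp only [Function.comp_apply] at h3
    simp only [h3]

variable [DecidableEq Ω] {S : Sys Ω r} {η : ℝ}

theorem ruleOK (hS : S.Symm) (hD : ∀ j ω, DecOK O S P η j (D j ω) ω)
    (τ : Ω → Equiv.Perm (Fin r)) : S.RuleOK P η (ruleOf O D τ) := by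
  intro j q hq u
  obtain ⟨h1, h2⟩ := (hD j u).2 (rename (τ u) q) fun U => lawOn_rename (hq U)
  refine ⟨fun x hx => ?_, fun hx hmust => ?_⟩
  · obtain ⟨x', hx', rfl⟩ := Option.map_eq_some_iff.1 hx
    obtain ⟨hmay, hdir⟩ := h1 x' hx'
    refine ⟨(Sys.mayMove_rename hS _ _ P j u).1 hmay, dirOK_rename (τ u) ?_⟩
    have e : S.hc (rename (τ u) q) (ball S.nb P.L u) (fun _ => P.level j + P.g) u =
        fun c => S.hc q (ball S.nb P.L u) (fun _ => P.level j + P.g) u (τ u c) :=
      funext fun c => Sys.hc_rename hS _ _ _ _ u c
    rw [e] at hdir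
    exact hdir
  · exact h2 (Option.map_eq_none_iff.1 hx) ((Sys.mustMove_rename hS _ _ P j u).2 hmust)

theorem lawOn_qAt (hr : 0 < r) {rule : Rule Ω r} (hrule : S.RuleOK P η rule) (h0 : 0 ≤ P.h)
    (h1 : P.h ≤ 1) (σ : ℕ → Ω → Bool × Bool) : ∀ j U, LawOn (qAt P rule σ j) U
  | 0, U => fun u _ => ⟨fun c => by simp [qAt], by simp [qAt, hr.ne']⟩
  | j + 1, U => fun u _ => by
    have ih := lawOn_qAt hr hrule h0 h1 σ j
    obtain ⟨hn, hs⟩ := ih {u} u (Finset.mem_singleton_self u)
    simp only [qAt, next]
    split_ifs
    · cases hx : rule j (qAt P rule σ j) u with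
      | none => exact ⟨hn, hs⟩
      | some x =>
        obtain ⟨-, hx1, hx2, -, -⟩ := (hrule j _ ih u).1 x hx
        refine ⟨fun c => mul_nonneg (hn c) ?_, ?_⟩
        · have hb : |sgn (σ j u).2 * Real.sqrt P.h * x c| ≤ 1 := by
            rw [abs_mul, abs_mul, abs_of_nonneg (Real.sqrt_nonneg _)]
            have e : |sgn (σ j u).2| = 1 := by cases (σ j u).2 <;> simp [sgn]
            rw [e, one_mul]
            exact (mul_le_of_le_one_right (Real.sqrt_nonneg _) (hx1 c)).trans
              (Real.sqrt_le_one.2 h1)
          linarith [(abs_le.1 hb).1]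
        · have e : ∀ c, qAt P rule σ j u c * (1 + sgn (σ j u).2 * Real.sqrt P.h * x c) =
              qAt P rule σ j u c + sgn (σ j u).2 * Real.sqrt P.h * (qAt P rule σ j u c * x c) :=
            fun c => by ring
          simp only [e, Finset.sum_add_distrib, ← Finset.mul_sum, hx2, hs, mul_zero, add_zero]
    · exact ⟨hn, hs⟩

end Vale.Agent.P078.Any.RandomPaving
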