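import Vale.Agent.P078.Any.RandomPaving.Statement
import Vale.Agent.P078.Any.RandomPaving.History

/-!
Assignments of seeds to words as maps of seeds on the orbit: counting by cells, renaming of
colours.
-/

namespace Vale.Agent.P078.Any.RandomPaving

open Function Finset
open Vale.Agent.P078.Quad (pick pick_map)

set_option linter.unusedSectionVars false

variable {Ω : Type} [TopologicalSpace Ω] {L r m M : ℕ} (O : Model Ω L) {w : Fin M → List (Fin L)}

theorem mem_consSet {ω : Ω} {a : Fin M → Seed m r} :
    a ∈ O.Cons w (Seed m r) ω ↔ ∀ i j, O.act (w i) ω = O.act (w j) ω → a i = a j := by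
  simp [Model.Cons]

open Classical in
/-- The map of seeds of an assignment. -/
noncomputable def read (w : Fin M → List (Fin L)) (ω : Ω) (a : Fin M → Seed m r) : Ω → Seed m r :=
  fun v => if h : ∃ i, O.act (w i) ω = v then a h.choose else (fun _ => (false, false), 1)

theorem read_act {ω : Ω} {a : Fin M → Seed m r} (ha : a ∈ O.Cons w (Seed m r) ω) (i : Fin M) :
    read O w ω a (O.act (w i) ω) = a i := by
  have h : ∃ j, O.act (w j) ω = O.act (w i) ω := ⟨i, rfl⟩
  rw [read, dif_pos h]
  exact (mem_consSet O).1 ha _ _ h.choose_spec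

/-- The seeds of cells, as a map on all points. -/
def cellSeed {X : Type} (cell : Ω → X) (σ : Fin m → X → Bool × Bool) (τ : X → Equiv.Perm (Fin r))
    (v : Ω) : Seed m r :=
  (fun j => σ j (cell v), τ (cell v))

theorem coin_cellSeed {X : Type} (cell : Ω → X) (σ : Fin m → X → Bool × Bool)
    (τ : X → Equiv.Perm (Fin r)) :
    (fun (i : ℕ) (v : Ω) => coin (cellSeed cell σ τ v) i) = seeds cell σ := by
  funext i v
  simp only [coin, cellSeed, seeds]

variable [DecidableEq Ω]

/-- A sum over the assignments is a sum over the seeds of the named points. -/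
theorem sum_cons {ω : Ω} {U : Finset Ω} (hU : ∀ i, O.act (w i) ω ∈ U)
    (hcov : ∀ v ∈ U, ∃ i, O.act (w i) ω = v) (cell : Ω → U)
    (hcell : ∀ v, ∀ h : v ∈ U, cell v = ⟨v, h⟩) (f : (Fin M → Seed m r) → ℝ) :
    ∑ a ∈ O.Cons w (Seed m r) ω, f a =
      ∑ τ : U → Equiv.Perm (Fin r), ∑ σ : Fin m → U → Bool × Bool,
        f fun i => cellSeed cell σ τ (O.act (w i) ω) := by
  rw [← Fintype.sum_prod_type' (f := fun (τ : U → Equiv.Perm (Fin r))
    (σ : Fin m → U → Bool × Bool) => f fun i => cellSeed cell σ τ (O.act (w i) ω))]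
  have hc : ∀ (σ : Fin m → U → Bool × Bool) (τ : U → Equiv.Perm (Fin r)),
      (fun i => cellSeed cell σ τ (O.act (w i) ω)) ∈ O.Cons w (Seed m r) ω := fun σ τ =>
    (mem_consSet O).2 fun i j h => by simp only [h]
  have hl : ∀ a ∈ O.Cons w (Seed m r) ω,
      (fun i => cellSeed cell (fun j (x : U) => (read O w ω a x).1 j)
        (fun x : U => (read O w ω a x).2) (O.act (w i) ω)) = a := fun a ha => funext fun i => by
    simp only [cellSeed, hcell _ (hU i), read_act O ha i]
  refine Finset.sum_nbij'
    (fun a => (fun x : U => (read O w ω a x).2, fun j (x : U) => (read O w ω a x).1 j))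
    (fun p i => cellSeed cell p.2 p.1 (O.act (w i) ω)) (fun a _ => Finset.mem_univ _)
    (fun p _ => hc p.2 p.1) hl (fun p _ => ?_) (fun a ha => by rw [hl a ha])
  have key : ∀ x : U, read O w ω (fun i => cellSeed cell p.2 p.1 (O.act (w i) ω)) x =
      cellSeed cell p.2 p.1 x := fun x => by
    obtain ⟨i, hi⟩ := hcov x x.2
    rw [← hi, read_act O (hc p.2 p.1)]
  refine Prod.ext (funext fun x => ?_) (funext fun j => funext fun x => ?_)
  all_goals
    dsimp only
    rw [key x]
    simp [cellSeed, hcell _ x.2]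

/-- An equivariant colour takes every value equally often. -/
theorem card_colour_eq {ω : Ω} (F : (Fin M → Seed m r) → Fin r)
    (hF : ∀ σ a, F (fun i => renameSeed σ (a i)) = σ (F a)) (c : Fin r) :
    r * ((O.Cons w (Seed m r) ω).filter fun a => F a = c).card =
      (O.Cons w (Seed m r) ω).card := by
  classical
  set A := O.Cons w (Seed m r) ω
  have hA : ∀ σ, ∀ a ∈ A, (fun i => renameSeed σ (a i)) ∈ A := fun σ a ha =>
    (mem_consSet O).2 fun i j h => by simp only [(mem_consSet O).1 ha i j h]
  have hinv : ∀ (d : Fin r) (a : Fin M → Seed m r),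
      (fun i => renameSeed (Equiv.swap d c) (renameSeed (Equiv.swap d c) (a i))) = a := fun d a =>
    funext fun i => by simp [renameSeed, ← mul_assoc]
  have h : ∀ d : Fin r, (A.filter fun a => F a = d).card = (A.filter fun a => F a = c).card := by
    intro d
    refine Finset.card_nbij' (fun a i => renameSeed (Equiv.swap d c) (a i))
      (fun a i => renameSeed (Equiv.swap d c) (a i)) ?_ ?_ (fun a _ => hinv d a) (fun a _ => hinv d a)
    · intro a ha
      simp only [Finset.mem_coe, Finset.mem_filter] at ha ⊢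
      exact ⟨hA _ a ha.1, by rw [hF, ha.2, Equiv.swap_apply_left]⟩
    · intro a ha
      simp only [Finset.mem_coe, Finset.mem_filter] at ha ⊢
      exact ⟨hA _ a ha.1, by rw [hF, ha.2, Equiv.swap_apply_right]⟩
  rw [Finset.card_eq_sum_card_fiberwise (f := F) (s := A) (t := Finset.univ)
    fun a _ => Finset.mem_univ _]
  simp [h]

end Vale.Agent.P078.Any.RandomPaving
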