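import Vale.Agent.P078.Any.RandomPaving.History
import Vale.Agent.P078.Any.Endgame

/-!
The final condition as a function of the seeds: it depends on finitely many translates, it is
open in the base point, and it paves the window.
-/

namespace Vale.Agent.P078.Any

open Matrix Function Filter Topology
open scoped ComplexOrder

set_option linter.unusedSectionVars false

/-- Conjugation by a diagonal unitary and a larger bound keep a window paved. -/
theorem pavedBy_conj_mono {ι : Type} [Fintype ι] [DecidableEq ι] {r : ℕ} {b b' : ℝ}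
    {M M' : Matrix ι ι ℂ} {κ : ι → Fin r} (h : PavedBy b M κ) (hb : b ≤ b') (d : ι → ℂ)
    (hd : ∀ i, ‖d i‖ = 1) (hM : ∀ i j, M' i j = star (d i) * M i j * d j) :
    PavedBy b' M' κ := by
  have hdd : ∀ i, star (d i) * d i = 1 := fun i => by
    rw [RCLike.star_def, ← Complex.normSq_eq_conj_mul_self, Complex.normSq_eq_norm_sq, hd]
    norm_num
  have hp : (((b' - b : ℝ) : ℂ) • (1 : Matrix ι ι ℂ)).PosSemidef := by
    have hnn : (0 : ℂ) ≤ ((b' - b : ℝ) : ℂ) := by exact_mod_cast sub_nonneg.2 hb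
    exact Matrix.PosSemidef.one.smul hnn
  have key : ∀ (c : ℝ) (s : ℂ), ((c + (b' - b) : ℝ) : ℂ) • (1 : Matrix ι ι ℂ) +
      s • Cartan.pinch M' κ =
      (Matrix.diagonal d)ᴴ * ((c : ℂ) • (1 : Matrix ι ι ℂ) + s • Cartan.pinch M κ) *
        Matrix.diagonal d + ((b' - b : ℝ) : ℂ) • (1 : Matrix ι ι ℂ) := by
    intro c s
    ext i j
    rw [Matrix.diagonal_conjTranspose, Matrix.add_apply, Matrix.add_apply, mul_diagonal,
      diagonal_mul]
    rcases eq_or_ne i j with rfl | hij
    · simp only [Matrix.add_apply, Matrix.smul_apply, one_apply_eq, Cartan.pinch, Matrix.of_apply,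
        if_true, hM, smul_eq_mul, Pi.star_apply]
      push_cast
      linear_combination (-(c : ℂ)) * hdd i
    · simp only [Matrix.add_apply, Matrix.smul_apply, one_apply_ne hij, Cartan.pinch,
        Matrix.of_apply, hM, smul_eq_mul, Pi.star_apply, mul_zero, zero_add, add_zero]
      split_ifs <;> ring
  refine ⟨?_, ?_⟩
  · have e := key (1 / 2 + b) (-1)
    simp only [neg_one_smul, ← sub_eq_add_neg, show 1 / 2 + b + (b' - b) = 1 / 2 + b' by ring] at e
    rw [e]
    exact (h.1.conjTranspose_mul_mul_same _).add hp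
  · have e := key (b - 1 / 2) 1
    simp only [one_smul, show b - 1 / 2 + (b' - b) = b' - 1 / 2 by ring] at e
    rw [e]
    exact (h.2.conjTranspose_mul_mul_same _).add hp

/-- A window of the kernel that is paved gives a paved window of the model. -/
theorem Model.paved_of_kern {Ω : Type} [TopologicalSpace Ω] [DecidableEq Ω] {L r : ℕ}
    (O : Model Ω L) {b b' : ℝ} (hb : b ≤ b') {κ : Ω → Fin r} {k : ℕ} {ω : Ω}
    (h : PavedBy b (O.kern.mat (ball O.nb k ω)) fun u => κ u) : O.Paved b' κ k ω := by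
  obtain rfl : ‹DecidableEq Ω› = fun a b => Classical.propDecidable (a = b) :=
    Subsingleton.elim _ _
  classical
  have hname : ∀ v : ball O.nb k ω, O.act (O.name ω v) ω = v := fun v => by
    obtain ⟨w, -, hw⟩ := O.mem_ball.1 v.2
    exact O.act_name hw
  have hrep : ∀ v : ball O.nb k ω, O.rep v = O.rep ω := fun v => by
    conv_lhs => rw [← hname v]
    exact O.rep_act _ _
  have hwd : ∀ v : ball O.nb k ω, O.act (O.wd v) (O.rep ω) = v := fun v => by
    rw [← hrep v]
    exact O.act_wd _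
  obtain ⟨d, hd, hde⟩ := O.gauge' (fun v : ball O.nb k ω => O.wd v) (fun v => O.name ω v)
    (O.rep ω) ω (fun v v' e => Subtype.ext ((hwd v).symm.trans (e.trans (hwd v'))))
    fun v => (hwd v).trans (hname v).symm
  refine pavedBy_conj_mono h hb d hd fun i j => ?_
  rw [Matrix.of_apply, hde i j]
  show _ = star (d i) * O.kmat _ i j * d j
  rw [Model.kmat, Matrix.of_apply, if_pos ((hrep i).trans (hrep j).symm), hrep i]

namespace RandomPaving

variable {Ω : Type} [TopologicalSpace Ω] [DecidableEq Ω] {L r m : ℕ}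
  (O : Model Ω L) (P : Par) (D : ℕ → Ω → Dec L r) (S : Sys Ω r) (k : ℕ) (Z : ℝ)

/-- The final condition after `j` rounds for a map of seeds. -/
def GoodAt (j : ℕ) (ω : Ω) (π : Ω → Seed m r) : Prop :=
  S.Good k Z (qAt P (ruleOf O D fun v => (π v).2) (fun i v => coin (π v) i) j) ω

variable {O P D S k Z} (hnb : S.nb = O.nb) (hlen : ∀ j ω i, ((D j ω).word i).length ≤ P.L)
include hnb hlen

theorem qAt_congr {j : ℕ} {ω : Ω} {π π' : Ω → Seed m r}
    (h : ∀ x, x.length ≤ k + j * P.L → π (O.act x ω) = π' (O.act x ω)) :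
    ∀ u ∈ ball S.nb k ω, qAt P (ruleOf O D fun v => (π v).2) (fun i v => coin (π v) i) j u =
      qAt P (ruleOf O D fun v => (π' v).2) (fun i v => coin (π' v) i) j u := by
  intro u hu
  rw [hnb] at hu
  obtain ⟨w, hw, rfl⟩ := O.mem_ball.1 hu
  rw [qAt_eq_hist, qAt_eq_hist]
  refine hist_congr O P D hlen j _ _ _ fun x hx => ?_
  rw [← O.act_append]
  exact h _ (by rw [List.length_append]; omega)

theorem goodAt_congr {j : ℕ} {ω : Ω} {π π' : Ω → Seed m r}
    (h : ∀ x, x.length ≤ k + j * P.L → π (O.act x ω) = π' (O.act x ω))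
    (hg : GoodAt O P D S k Z j ω π) : GoodAt O P D S k Z j ω π' := by
  have e := qAt_congr (k := k) hnb hlen h
  refine ⟨fun T hT => ?_, fun u hu => ?_⟩
  · rw [← S.congr _ _ T _ _ (fun u hu => e u (hT hu)) fun _ _ => rfl]
    exact hg.1 T hT
  · rw [← e u hu]
    exact hg.2 u hu

/-- The final condition is open in the base point. -/
theorem goodAt_eventually [CompactSpace Ω] [T2Space Ω] (hF : S.F = O.kern.F)
    (hD : ∀ j, IsLocallyConstant (D j)) {j : ℕ} {ω₀ : Ω} {πs : Ω → Ω → Seed m r}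
    (hπs : ∀ x : List (Fin L), x.length ≤ k + j * P.L →
      ∀ᶠ y in 𝓝 ω₀, πs y (O.act x y) = πs ω₀ (O.act x ω₀))
    (hg : GoodAt O P D S k Z j ω₀ (πs ω₀)) :
    ∀ᶠ y in 𝓝 ω₀, GoodAt O P D S k Z j y (πs y) := by
  obtain ⟨n, φ, root, hev⟩ := O.exists_chart ω₀ k
  have h₀ := hev.self_of_nhds
  set q : Ω → Ω → Fin r → ℝ := fun y =>
    qAt P (ruleOf O D fun v => (πs y v).2) (fun i v => coin (πs y v) i) j with hq
  set p : Fin n → Fin r → ℝ := fun i => q ω₀ (O.act (φ i) ω₀) with hp
  have hpos : ∀ T : Finset (Fin n), 0 < G O φ ω₀ p T Z := fun T => by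
    have := hg.1 _ ((ball_chart hnb h₀).1 ▸
      Finset.image_subset_image (Finset.subset_univ T) :
        T.image (fun i => O.act (φ i) ω₀) ⊆ ball S.nb k ω₀)
    rwa [F_chart hF h₀] at this
  have hopen : ∀ T : Finset (Fin n), ∀ᶠ y in 𝓝 ω₀, 0 < G O φ y p T Z := fun T =>
    (((continuous_G (r := r) O φ T Z).comp₂ continuous_id
      continuous_const).continuousAt.eventually (lt_mem_nhds (hpos T)))
  have hhist : ∀ᶠ y in 𝓝 ω₀, ∀ i, q y (O.act (φ i) y) = p i := by
    refine eventually_all.2 fun i => ?_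
    filter_upwards [((isLocallyConstant_hist (m := m) O P D hD j).comp_continuous
        (O.continuous_act (φ i))).eventually_eq ω₀,
      (Cartan.OrbitModel.wordsLE L (k + j * P.L)).eventually_all.2 fun x hx =>
        hπs x (Cartan.OrbitModel.mem_wordsLE.1 hx)] with y h1 h2
    simp only [hp, hq, qAt_eq_hist]
    simp only [Function.comp_apply] at h1
    rw [h1]
    refine hist_congr O P D hlen j _ _ _ fun x hx => ?_
    rw [← O.act_append, ← O.act_append]
    refine h2 _ (Cartan.OrbitModel.mem_wordsLE.2 ?_)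
    rw [List.length_append]
    have := h₀.length_le i
    omega
  filter_upwards [hev, hhist, eventually_all.2 hopen] with y hy he ho
  have e : (fun i => q y (O.act (φ i) y)) = p := funext he
  refine ⟨fun T hT => ?_, fun u hu => ?_⟩
  · rw [(ball_chart hnb hy).1] at hT
    obtain ⟨T, -, rfl⟩ := Finset.subset_image_iff.1 hT
    rw [F_chart hF hy]
    exact lt_of_lt_of_eq (ho T) (congrArg (fun p => G O φ y p T Z) e.symm)
  · rw [(ball_chart hnb hy).1] at hu
    obtain ⟨i, -, rfl⟩ := Finset.mem_image.1 hu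
    obtain ⟨c, hc⟩ := hg.2 (O.act (φ i) ω₀)
      (by rw [hnb]; exact O.act_mem_ball (h₀.length_le i))
    exact ⟨c, le_of_le_of_eq hc (congrFun (he i).symm c)⟩

omit hlen in
/-- The final condition paves the window. -/
theorem paved_of_good (hF : S.F = O.kern.F) (hr : 0 < r) {q : Ω → Fin r → ℝ}
    (hq : ∀ U, LawOn q U) {ω : Ω} (hg : S.Good k Z q ω) {κ : Ω → Fin r}
    (hκ : ∀ u ∈ ball S.nb k ω, 1 / 3 ≤ q u (κ u)) {b : ℝ} (hb : 6 * (Z - 1 / 2) ≤ b) :
    O.Paved b κ k ω := by
  refine O.paved_of_kern hb (endgameStatement Ω O.kern r q (ball O.nb k ω) Z κ hr (hq _) ?_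
    (hnb ▸ hκ))
  intro T hT
  rw [← hF]
  exact hg.1 T (hnb ▸ hT)

end RandomPaving

end Vale.Agent.P078.Any
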