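import Vale.Agent.P078.Any.Basic
import Vale.Agent.P078.Cartan.Quad.RandomRule

/-!
Renaming the colours: expected determinants of a kernel and the tests of the rule are unchanged.
-/

namespace Vale.Agent.P078.Any

open Function
open Vale.Agent.P078.Quad (permState colour side colour_permState side_permState Fdet)

set_option linter.unusedSectionVars false

variable {V : Type} [DecidableEq V] {r : ℕ}

/-- The laws seen in renamed colours. -/
def rename (σ : Equiv.Perm (Fin r)) (w : V → Fin r → ℝ) : V → Fin r → ℝ := fun u c => w u (σ c)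

theorem Kern.F_rename (K : Kern V) (σ : Equiv.Perm (Fin r)) (w : V → Fin r → ℝ) (U : Finset V)
    (z : V → ℝ) : K.F (rename σ w) U z = K.F w U z := by
  unfold Kern.F Fdet rename
  refine congrArg Complex.re (Fintype.sum_equiv ((Equiv.refl _).arrowCongr (permState σ)) _ _ fun s => ?_)
  have h1 : Quad.pinch (Quad.fam (r := r) (K.mat U) fun _ _ => false)
      ((Equiv.refl U).arrowCongr (permState σ) s) =
      Quad.pinch (Quad.fam (r := r) (K.mat U) fun _ _ => false) s := by
    ext i j
    simp [Quad.pinch, Quad.fam, side_permState, (permState σ).injective.eq_iff]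
  rw [h1]
  simp [Cartan.weight, colour_permState]

/-- The expected determinants do not see the names of the colours. -/
def Sys.Symm (S : Sys V r) : Prop :=
  ∀ σ w U z, S.F (rename σ w) U z = S.F w U z

theorem lawOn_rename {σ : Equiv.Perm (Fin r)} {w : V → Fin r → ℝ} {U : Finset V}
    (h : LawOn w U) : LawOn (rename σ w) U := fun u hu =>
  ⟨fun _ => (h u hu).1 _, (Equiv.sum_comp σ (w u)).trans (h u hu).2⟩

variable {S : Sys V r} (hS : S.Symm) (σ : Equiv.Perm (Fin r)) (w : V → Fin r → ℝ)
include hS

theorem Sys.hc_rename (U : Finset V) (z : V → ℝ) (u : V) (c : Fin r) :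
    S.hc (rename σ w) U z u c = S.hc w U z u (σ c) := by
  unfold Sys.hc
  have e : update (rename σ w) u (Pi.single c 1) = rename σ (update w u (Pi.single (σ c) 1)) := by
    funext v d
    rcases eq_or_ne v u with rfl | h
    · simp [rename, Pi.single_apply]
    · simp [rename, h]
  rw [e, hS, hS]

theorem Sys.mayMove_rename (P : Par) (j : ℕ) (u : V) :
    S.MayMove P j (rename σ w) u ↔ S.MayMove P j w u := by
  simp only [Sys.MayMove, Sys.Valid, Sys.Res, hS σ]

theorem Sys.mustMove_rename (P : Par) (j : ℕ) (u : V) :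
    S.MustMove P j (rename σ w) u ↔ S.MustMove P j w u := by
  simp only [Sys.MustMove, Sys.Res, hS σ]
  refine and_congr ⟨?_, ?_⟩ Iff.rfl
  · rintro ⟨a, b, c, hab, hac, hbc, ha, hb, hc⟩
    exact ⟨σ a, σ b, σ c, σ.injective.ne hab, σ.injective.ne hac, σ.injective.ne hbc, ha, hb, hc⟩
  · rintro ⟨a, b, c, hab, hac, hbc, ha, hb, hc⟩
    refine ⟨σ.symm a, σ.symm b, σ.symm c, σ.symm.injective.ne hab, σ.symm.injective.ne hac,
      σ.symm.injective.ne hbc, ?_, ?_, ?_⟩ <;> simpa [rename]

omit hS in
/-- A direction in renamed colours, read back. -/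
theorem dirOK_rename {eps η : ℝ} {qu hh x : Fin r → ℝ}
    (h : DirOK eps η (fun c => qu (σ c)) (fun c => hh (σ c)) x) :
    DirOK eps η qu hh fun c => x (σ.symm c) := by
  obtain ⟨h1, h2, h3, h4⟩ := h
  refine ⟨fun c => h1 _, ?_, ?_, ?_⟩
  · rw [← Equiv.sum_comp σ, ← h2]
    simp
  · rw [← Equiv.sum_comp σ]
    simpa using h3
  · rw [← Equiv.sum_comp σ]
    simpa using h4

end Vale.Agent.P078.Any
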