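import Vale.Agent.P078.Any.RandomPaving.Orbit
import Vale.Agent.P078.Any.Endgame
import Vale.Agent.P078.Cartan.Quad.SetFun

/-!
One kernel on all points of a model: orbits are blocks, each read from a representative. On a
labelled window its expected determinant is computed from the entries at the base point.
-/

namespace Vale.Agent.P078.Any

open Matrix Function Filter Topology
open Vale.Agent.P078.Quad (Fdet fam colour)
open scoped ComplexOrder

set_option linter.unusedSectionVars false

/-- A matrix with zero entries between different fibres is positive if each fibre is. -/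
theorem posSemidef_of_fibres {ι β : Type*} [Fintype ι] [DecidableEq ι] [DecidableEq β] (f : ι → β)
    (M : Matrix ι ι ℂ) (h0 : ∀ i j, f i ≠ f j → M i j = 0)
    (h : ∀ b, (M.submatrix (fun i : {i // f i = b} => (i : ι))
      fun i : {i // f i = b} => (i : ι)).PosSemidef) : M.PosSemidef := by
  let P : (b : β) → Matrix {i // f i = b} ι ℂ := fun b =>
    Matrix.of fun a i => if (a : ι) = i then 1 else 0
  have e : M = ∑ b ∈ Finset.univ.image f, (P b)ᴴ *
      M.submatrix (fun i : {i // f i = b} => (i : ι)) (fun i : {i // f i = b} => (i : ι)) * P b := by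
    have hterm : ∀ b i j, ((P b)ᴴ * M.submatrix (fun i : {i // f i = b} => (i : ι))
        (fun i : {i // f i = b} => (i : ι)) * P b) i j =
        if f i = b ∧ f j = b then M i j else 0 := by
      intro b i j
      simp only [mul_apply, conjTranspose_apply, submatrix_apply, P, Matrix.of_apply]
      split_ifs with hij
      · rw [Finset.sum_eq_single ⟨j, hij.2⟩, Finset.sum_eq_single ⟨i, hij.1⟩]
        · simp
        · intro a _ ha
          simp
          intro e
          exact absurd (Subtype.ext e) ha
        · simp
        · intro a _ ha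
          simp
          intro e
          exact absurd (Subtype.ext e) ha
        · simp
      · refine Finset.sum_eq_zero fun a' _ => ?_
        by_cases ha' : (a' : ι) = j
        · rw [Finset.sum_eq_zero fun a _ => ?_, zero_mul]
          by_cases ha : (a : ι) = i
          · exact absurd ⟨ha ▸ a.2, ha' ▸ a'.2⟩ hij
          · simp [ha]
        · simp [ha']
    ext i j
    rw [Matrix.sum_apply, Finset.sum_congr rfl fun b _ => hterm b i j]
    by_cases hij : f i = f j
    · rw [Finset.sum_eq_single (f i) (fun b _ hb => if_neg fun e => hb e.1.symm)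
        fun hn => absurd (Finset.mem_image_of_mem f (Finset.mem_univ i)) hn, if_pos ⟨rfl, hij.symm⟩]
    · rw [Finset.sum_eq_zero fun b _ => if_neg fun e => hij (e.1.trans e.2.symm), h0 i j hij]
  rw [e]
  exact Matrix.posSemidef_sum _ fun b _ => (h b).conjTranspose_mul_mul_same _

namespace Model

variable {Ω : Type} [TopologicalSpace Ω] {L : ℕ} (O : Model Ω L)

/-- The orbits. -/
def orbitSetoid : Setoid Ω where
  r a b := ∃ w, O.act w a = b
  iseqv := ⟨fun a => ⟨[], rfl⟩, fun ⟨w, h⟩ => ⟨O.rev w, h ▸ O.act_rev w _⟩,
    fun ⟨w, h⟩ ⟨w', h'⟩ => ⟨w' ++ w, by rw [O.act_append, h, h']⟩⟩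

/-- The representative of an orbit. -/
noncomputable def rep (v : Ω) : Ω := (Quotient.mk O.orbitSetoid v).out

theorem exists_word (v : Ω) : ∃ w, O.act w (O.rep v) = v :=
  Quotient.mk_out (s := O.orbitSetoid) v

/-- A word from the representative. -/
noncomputable def wd (v : Ω) : List (Fin L) := (O.exists_word v).choose

theorem act_wd (v : Ω) : O.act (O.wd v) (O.rep v) = v := (O.exists_word v).choose_spec

theorem rep_act (w : List (Fin L)) (v : Ω) : O.rep (O.act w v) = O.rep v :=
  (congrArg Quotient.out (Quotient.sound (s := O.orbitSetoid)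
    (a := v) (b := O.act w v) ⟨w, rfl⟩)).symm

open Classical in
/-- The matrix of a window. -/
noncomputable def kmat (U : Finset Ω) : Matrix U U ℂ :=
  Matrix.of fun i j =>
    if O.rep i = O.rep j then O.ent (O.wd i) (O.wd j) (O.rep i) else 0

variable [DecidableEq Ω]

theorem kmat_posSemidef (U : Finset Ω) :
    (O.kmat U).PosSemidef ∧ (1 - O.kmat U).PosSemidef := by
  have key : ∀ b : Ω, ((O.kmat U).submatrix (fun i : {i : U // O.rep i = b} => (i : U))
      fun i : {i : U // O.rep i = b} => (i : U)).PosSemidef ∧
      ((1 - O.kmat U).submatrix (fun i : {i : U // O.rep i = b} => (i : U))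
      fun i : {i : U // O.rep i = b} => (i : U)).PosSemidef := by
    intro b
    let e := Fintype.equivFin {i : U // O.rep i = b}
    let φ : Fin (Fintype.card {i : U // O.rep i = b}) → List (Fin L) :=
      fun a => O.wd ((e.symm a : U) : Ω)
    have hact : ∀ a, O.act (φ a) b = ((e.symm a : U) : Ω) := fun a => by
      have h := O.act_wd ((e.symm a : U) : Ω)
      rwa [(e.symm a).2] at h
    obtain ⟨h1, h2⟩ := O.posSemidef _ φ b fun a a' h => by
      have h' : O.act (φ a) b = O.act (φ a') b := h
      rw [hact, hact] at h'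
      exact e.symm.injective (Subtype.ext (Subtype.ext h'))
    refine ⟨?_, ?_⟩
    · have := h1.submatrix e
      refine (congrArg Matrix.PosSemidef ?_).mp this
      ext a a'
      simp [φ, kmat, a.2, a'.2]
    · have := h2.submatrix e
      refine (congrArg Matrix.PosSemidef ?_).mp this
      ext a a'
      simp only [φ, kmat, submatrix_apply, Matrix.sub_apply, Matrix.of_apply, a.2, a'.2, if_true,
        Equiv.symm_apply_apply, Matrix.one_apply, e.injective.eq_iff, Subtype.val_inj]
  refine ⟨posSemidef_of_fibres (fun i : U => O.rep i) _ (fun i j h => if_neg h) fun b => (key b).1,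
    posSemidef_of_fibres (fun i : U => O.rep i) _ (fun i j h => ?_) fun b => (key b).2⟩
  rw [Matrix.sub_apply, one_apply_ne fun e : i = j => h (by rw [e]), kmat, Matrix.of_apply,
    if_neg h, sub_zero]

/-- The kernel of a model. -/
noncomputable def kern : Kern Ω where
  nb := O.nb
  nb_symm := O.nb_symm
  mat := O.kmat
  posSemidef := O.kmat_posSemidef
  diag U i := by rw [kmat, Matrix.of_apply, if_pos rfl, O.diag]
  range_one U i j hij hnb := by
    rw [kmat, Matrix.of_apply]
    split_ifs with h
    · refine O.range_one _ _ _ ?_ ?_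
      · show O.act (O.wd i) (O.rep i) ≠ O.act (O.wd j) (O.rep i)
        rw [O.act_wd, h, O.act_wd]
        exact fun e => hij (Subtype.ext e)
      · intro g e
        refine hnb (O.mem_nb.2 ⟨g, ?_⟩)
        change O.T g (O.act (O.wd i) (O.rep i)) = O.act (O.wd j) (O.rep i) at e
        rw [O.act_wd, h, O.act_wd] at e
        exact e
    · rfl
  gauge T U h := ⟨fun _ => 1, fun _ => norm_one, fun i j => by simp [kmat]⟩

/-- The matrix of labels over a base point. -/
noncomputable def entMat {ι : Type} (φ : ι → List (Fin L)) (ω : Ω) : Matrix ι ι ℂ :=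
  Matrix.of fun i j => O.ent (φ i) (φ j) ω

/-- The expected determinant of a labelled window, from the entries at the base point. -/
noncomputable def locF {ι : Type} [Fintype ι] [DecidableEq ι] {r : ℕ} (φ : ι → List (Fin L))
    (ω : Ω) (p : ι → Fin r → ℝ) (z : ι → ℝ) : ℝ :=
  (Fdet (fam (O.entMat φ ω) fun _ _ => false) (fun i s => p i (colour s) / 2)
    fun i => (z i : ℂ)).re

/-- Two labellings of the same points are conjugate by a diagonal unitary. -/
theorem gauge' {ι : Type} [Fintype ι] (φ φ' : ι → List (Fin L)) (ω ω' : Ω)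
    (hinj : Injective fun i => O.act (φ i) ω) (h : ∀ i, O.act (φ i) ω = O.act (φ' i) ω') :
    ∃ d : ι → ℂ, (∀ i, ‖d i‖ = 1) ∧
      ∀ i j, O.ent (φ' i) (φ' j) ω' = star (d i) * O.ent (φ i) (φ j) ω * d j := by
  let e := Fintype.equivFin ι
  obtain ⟨d, hd, hde⟩ := O.gauge _ (φ ∘ e.symm) (φ' ∘ e.symm) ω ω'
    (fun a a' ha => e.symm.injective (hinj ha)) fun a => h _
  refine ⟨d ∘ e, fun i => hd _, fun i j => ?_⟩
  simpa using hde (e i) (e j)

theorem kern_F_image {ι : Type} [Fintype ι] [DecidableEq ι] {r : ℕ} (φ : ι → List (Fin L))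
    (ω : Ω) (hinj : Injective fun i => O.act (φ i) ω) (w : Ω → Fin r → ℝ) (z : Ω → ℝ) :
    O.kern.F w (Finset.univ.image fun i => O.act (φ i) ω) z =
      O.locF φ ω (fun i => w (O.act (φ i) ω)) fun i => z (O.act (φ i) ω) := by
  set U := Finset.univ.image fun i => O.act (φ i) ω
  let e : ι ≃ U := Equiv.ofBijective
    (fun i => ⟨O.act (φ i) ω, Finset.mem_image_of_mem _ (Finset.mem_univ i)⟩)
    ⟨fun a b h => hinj (congrArg Subtype.val h), fun a => by
      obtain ⟨i, -, hi⟩ := Finset.mem_image.1 a.2
      exact ⟨i, Subtype.ext hi⟩⟩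
  have hrep : ∀ i, O.rep (e i : Ω) = O.rep ω := fun i => O.rep_act _ _
  obtain ⟨d, hd, hde⟩ := O.gauge' φ (fun i => O.wd (e i : Ω)) ω (O.rep ω) hinj fun i => by
    have h := O.act_wd (e i : Ω)
    rw [hrep] at h
    rw [h]
    rfl
  have hmat : (O.kmat U).submatrix e e =
      Matrix.of fun i j => star (d i) * O.entMat φ ω i j * d j := by
    ext i j
    rw [submatrix_apply, kmat, Matrix.of_apply, hrep, hrep, if_pos rfl, hde]
    rfl
  have hfam : (fun s : Fin (r * 2) => (fam (O.kmat U) (fun _ _ => false) s).submatrix e e) =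
      fun s => Matrix.of fun i j => star (d i) * fam (O.entMat φ ω) (fun _ _ => false) s i j * d j := by
    rw [← Quad.fam_submatrix (r := r) (O.kmat U) (fun _ _ => false) e.injective, hmat]
    exact Quad.fam_conj _ d hd _
  show (Fdet (fam (O.kmat U) fun _ _ => false) (fun a s => w a (colour s) / 2)
    fun a => (z a : ℂ)).re = _
  rw [← Fdet_equiv_conj _ _ _ e (fun i => star (d i)) fun i => (norm_star (d i)).trans (hd i)]
  have hdd : ∀ i, star (d i) * d i = 1 := fun i => by
    rw [RCLike.star_def, ← Complex.normSq_eq_conj_mul_self, Complex.normSq_eq_norm_sq, hd]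
    norm_num
  have hG : (fun c : Fin (r * 2) => Matrix.of fun i j => star (star (d i)) *
      fam (O.kmat U) (fun _ _ => false) c (e i) (e j) * star (d j)) =
      fam (O.entMat φ ω) fun _ _ => false := by
    funext c
    ext i j
    have h := congrFun (congrFun (congrFun hfam c) i) j
    simp only [submatrix_apply, Matrix.of_apply] at h
    rw [Matrix.of_apply, h, star_star]
    linear_combination (fam (O.entMat φ ω) (fun _ _ => false) c i j * (star (d j) * d j)) * hdd i
      + fam (O.entMat φ ω) (fun _ _ => false) c i j * hdd j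
  rw [hG]
  rfl

theorem continuous_locF {ι : Type} [Fintype ι] [DecidableEq ι] {r : ℕ} {Y : Type*}
    [TopologicalSpace Y] (φ : ι → List (Fin L)) {f : Y → Ω} (hf : Continuous f)
    {p : Y → ι → Fin r → ℝ} (hp : Continuous p) (z : ι → ℝ) :
    Continuous fun y => O.locF φ (f y) (p y) z := by
  unfold locF Fdet
  refine Complex.continuous_re.comp (continuous_finsetSum _ fun s _ => Continuous.mul ?_ ?_)
  · refine continuous_finsetProd _ fun i _ => Complex.continuous_ofReal.comp ?_
    exact (continuous_apply_apply i (colour (s i))).comp hp |>.div_const 2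
  · refine Continuous.matrix_det (continuous_const.sub (continuous_matrix fun i j => ?_))
    have h : ∀ a b, Continuous fun y => O.ent (φ a) (φ b) (f y) := fun a b =>
      (O.ent (φ a) (φ b)).continuous.comp hf
    simp only [Quad.pinch, fam, Quad.base, entMat, Matrix.of_apply]
    split_ifs
    all_goals
      first
        | exact continuous_const
        | exact h _ _
        | exact continuous_const.sub (h _ _)

end Model

end Vale.Agent.P078.Any
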