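import Vale.Agent.P078.Any.RandomPaving.Good
import Vale.Agent.P078.Any.RandomPaving.Count
import Vale.Agent.P078.Any.SysKern
import Vale.Agent.P078.Any.Core

/-!
Block D, random form: the colour is the first heavy colour in the frame of the point after a well
chosen round of the rule.
-/

namespace Vale.Agent.P078.Any

open Function Filter Topology Finset
open Vale.Agent.P078.Quad (pick pick_map pick_mem exists_locConst_choice)
open Vale.Agent.P078.Cartan.OrbitModel (wordsLE mem_wordsLE)
open RandomPaving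

set_option linter.unusedSectionVars false

/-- The level of the end fits below ten over the root of the number of colours. -/
theorem endgame_level_le {r : ℕ} (hr : 0 < r) :
    6 * (rootLevel r + 3 * (1 / (24 * Real.sqrt r)) - 1 / 2) ≤ 10 / Real.sqrt r := by
  have hr1 : (1 : ℝ) ≤ r := by exact_mod_cast hr
  have hs1 : 1 ≤ Real.sqrt r := Real.one_le_sqrt.2 hr1
  have hs : 0 < Real.sqrt r := lt_of_lt_of_le one_pos hs1
  have h2 : 0 < Real.sqrt 2 := Real.sqrt_pos.2 two_pos
  have hsq : Real.sqrt r * Real.sqrt r = r := Real.mul_self_sqrt (by positivity)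
  have hle : Real.sqrt r ≤ r := by nlinarith
  have e1 : Real.sqrt (2 * r) = Real.sqrt 2 * Real.sqrt r := Real.sqrt_mul (by norm_num) _
  have e2 : Real.sqrt (1 / 2) = 1 / Real.sqrt 2 := by
    rw [one_div, Real.sqrt_inv, one_div]
  have key : rootLevel r = 1 / 2 + 1 / Real.sqrt r + 1 / (2 * (r : ℝ)) := by
    have h22 : Real.sqrt 2 * Real.sqrt 2 = 2 := Real.mul_self_sqrt (by norm_num)
    have hmid : 2 * (1 / (Real.sqrt 2 * Real.sqrt r)) * (1 / Real.sqrt 2) = 1 / Real.sqrt r := by
      rw [mul_assoc, one_div_mul_one_div, mul_right_comm, h22, ← one_div_mul_one_div]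
      ring
    rw [rootLevel, e1, e2, add_sq, hmid, div_pow, div_pow, mul_pow, Real.sq_sqrt (by norm_num),
      Real.sq_sqrt (by positivity)]
    ring
  have h3 : 1 / (2 * (r : ℝ)) ≤ 1 / (2 * Real.sqrt r) := by gcongr
  rw [key, show 10 / Real.sqrt r = 10 * (1 / Real.sqrt r) by ring]
  have e3 : 1 / (24 * Real.sqrt r) = 1 / 24 * (1 / Real.sqrt r) := by ring
  have e4 : 1 / (2 * Real.sqrt r) = 1 / 2 * (1 / Real.sqrt r) := by ring
  have hp : 0 < 1 / Real.sqrt r := one_div_pos.2 hs
  linarith

open Classical in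
/-- Block D, random form. -/
theorem randomPavingStatement : RandomPavingStatement := by
  intro Ω _ _ _ _ L r k δ O μ hr hδ hμ hμ1
  have : NeZero r := ⟨hr.ne'⟩
  set γ : ℝ := 1 / (24 * Real.sqrt r) with hγ
  set Z : ℝ := rootLevel r + 3 * γ with hZ
  have hγ0 : 0 < γ := by
    have : (0 : ℝ) < Real.sqrt r := Real.sqrt_pos.2 (by exact_mod_cast hr)
    positivity
  obtain ⟨P, ρ, η, hm, hη, hg, hLam, heps, hh0, hh1, hcore⟩ :=
    coreStatement r L k γ δ hr hγ0 hδ
  obtain ⟨S, hnb, hF⟩ := sysStatement Ω O.kern r hr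
  have hnb' : S.nb = O.nb := hnb
  have hS : S.Symm := fun σ w U z => by rw [hF]; exact O.kern.F_rename σ w U z
  choose D hDc hDok using fun j => exists_locConst_choice
    (fun (D : Dec L r) y => DecOK O S P η j D y) (exists_decOK hnb' hF hg hLam heps hη j)
  have hlen : ∀ j ω i, ((D j ω).word i).length ≤ P.L := fun j ω i => (hDok j ω).1.length_le i
  have hrule : ∀ τ, S.RuleOK P η (ruleOf O D τ) := ruleOK O P D hS hDok
  -- the words
  set R : ℕ := max ρ (k + P.m * P.L) with hR
  set W : Finset (List (Fin L)) := wordsLE L R with hW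
  let w : Fin W.card → List (Fin L) := fun i => (W.equivFin.symm i : List (Fin L))
  have hwlen : ∀ i, (w i).length ≤ R := fun i => mem_wordsLE.1 (W.equivFin.symm i).2
  have hword : ∀ x : List (Fin L), x.length ≤ R → ∃ i, w i = x := fun x hx =>
    ⟨W.equivFin ⟨x, mem_wordsLE.2 hx⟩, by simp [w]⟩
  have hjR : ∀ j : Fin P.m, ∀ {n}, n ≤ k + (j : ℕ) * P.L → n ≤ R := fun j n hn =>
    hn.trans ((Nat.add_le_add_left (Nat.mul_le_mul_right _ j.2.le) _).trans (le_max_right _ _))
  -- the pattern of coincidences is locally constant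
  have hCons : IsLocallyConstant fun y => O.Cons w (Seed P.m r) y := by
    rw [IsLocallyConstant.iff_eventually_eq]
    intro ω₀
    filter_upwards [eventually_all.2 fun i => eventually_all.2 fun i' =>
      O.eventually_eq_iff (w i) (w i') ω₀] with y hy
    ext a
    simp only [mem_consSet, hy]
  -- a locally constant choice of a base point at which failures are read
  let good : Fin P.m → Ω → (Fin W.card → Seed P.m r) → Prop := fun j y a =>
    GoodAt O P D S k Z j y (read O w y a)
  have hev : ∀ ω, ∃ i, ∀ᶠ y in 𝓝 ω, O.Cons w (Seed P.m r) i = O.Cons w (Seed P.m r) y ∧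
      ∀ j, ∀ a ∈ O.Cons w (Seed P.m r) i, good j i a → good j y a := fun ω => by
    refine ⟨ω, (hCons.eventually_eq ω).mono (fun y hy => hy.symm) |>.and (eventually_all.2 fun j =>
      (Finset.eventually_all _).2 fun a ha => ?_)⟩
    by_cases hgood : good j ω a
    · refine (goodAt_eventually (πs := fun y => read O w y a) hnb' hlen hF hDc
        (fun x hx => ?_) hgood).mono fun y hy _ => hy
      obtain ⟨i, rfl⟩ := hword x (hjR j hx)
      filter_upwards [hCons.eventually_eq ω] with y hy
      rw [read_act O ha, read_act O (hy.symm ▸ ha)]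
    · exact Eventually.of_forall fun y h => absurd h hgood
  obtain ⟨base, hbase, hbaseOK⟩ := exists_locConst_choice _ hev
  let bad : Fin P.m → Ω → (Fin W.card → Seed P.m r) → Bool := fun j y a =>
    decide ¬ good j (base y) a
  have hbadc : ∀ j, IsLocallyConstant (bad j) := fun j =>
    hbase.comp fun i a => decide ¬ good j i a
  let Dj : Fin P.m → C(Ω, ℝ) := fun j =>
    ⟨fun y => (((O.Cons w (Seed P.m r) y).filter fun a => bad j y a = true).card : ℝ) /
      (O.Cons w (Seed P.m r) y).card,
    ((hCons.prodMk (hbadc j)).comp fun p : Finset (Fin W.card → Seed P.m r) × _ =>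
      (((p.1).filter fun a => p.2 a = true).card : ℝ) / p.1.card).continuous⟩
  -- the failures, summed over the rounds
  have hfail : ∀ ω, ∑ j : Fin P.m, ∑ a ∈ O.Cons w (Seed P.m r) ω,
      (if good j ω a then (0 : ℝ) else 1) ≤ δ * P.m * (O.Cons w (Seed P.m r) ω).card := by
    intro ω
    set U := ball O.nb R ω
    have hU : ∀ i, O.act (w i) ω ∈ U := fun i => O.act_mem_ball (hwlen i)
    have hcov : ∀ v ∈ U, ∃ i, O.act (w i) ω = v := fun v hv => by
      obtain ⟨x, hx, rfl⟩ := O.mem_ball.1 hv
      obtain ⟨i, rfl⟩ := hword x hx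
      exact ⟨i, rfl⟩
    let cell : Ω → U := fun v => if h : v ∈ U then ⟨v, h⟩ else ⟨ω, mem_ball_self _ _ _⟩
    have hcell : ∀ v, ∀ h : v ∈ U, cell v = ⟨v, h⟩ := fun v h => dif_pos h
    have hcard : ((O.Cons w (Seed P.m r) ω).card : ℝ) =
        ∑ a ∈ O.Cons w (Seed P.m r) ω, (1 : ℝ) := by simp
    rw [hcard, sum_cons O hU hcov cell hcell fun _ => (1 : ℝ)]
    simp only [sum_cons O hU hcov cell hcell]
    rw [Finset.sum_comm, Finset.mul_sum]
    refine Finset.sum_le_sum fun τ _ => ?_
    have hinj : Set.InjOn cell (ball S.nb ρ ω) := fun v hv v' hv' e => by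
      rw [hnb'] at hv hv'
      have h1 := O.ball_mono (le_max_left ρ (k + P.m * P.L)) ω hv
      have h2 := O.ball_mono (le_max_left ρ (k + P.m * P.L)) ω hv'
      rw [hcell v h1, hcell v' h2] at e
      exact congrArg Subtype.val e
    have := hcore Ω S (fun v => hnb' ▸ O.card_nb_le v) _ (hrule fun v => τ (cell v)) U cell ω hinj
    rw [Finset.sum_const, Finset.card_univ, nsmul_eq_mul, mul_one]
    refine le_trans (le_of_eq (Finset.sum_congr rfl fun j _ => Finset.sum_congr rfl fun σ _ => ?_))
      this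
    refine if_congr ?_ rfl rfl
    have e : ∀ x : List (Fin L), x.length ≤ k + (j : ℕ) * P.L →
        read O w ω (fun i => cellSeed cell σ τ (O.act (w i) ω)) (O.act x ω) =
          cellSeed cell σ τ (O.act x ω) := fun x hx => by
      obtain ⟨i, rfl⟩ := hword x (hjR j hx)
      exact read_act O ((mem_consSet O).2 fun a b h => by simp only [h]) i
    have hG : GoodAt O P D S k Z j ω (cellSeed cell σ τ) =
        S.Good k Z (qAt P (ruleOf O D fun v => τ (cell v)) (seeds cell σ) j) ω := by
      rw [GoodAt, coin_cellSeed]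
      rfl
    rw [← hG]
    exact ⟨goodAt_congr hnb' hlen e, goodAt_congr hnb' hlen fun x hx => (e x hx).symm⟩
  -- the choice of the round
  have hmono : ∀ f g : C(Ω, ℝ), (∀ ω, f ω ≤ g ω) → μ f ≤ μ g := fun f g h => by
    have := hμ (g - f) fun ω => by simpa using h ω
    rw [map_sub] at this
    linarith
  have hsum : ∀ y, ∑ j, Dj j y ≤ δ * P.m := fun y => by
    simp only [Dj, ContinuousMap.coe_mk, ← Finset.sum_div]
    refine div_le_of_le_mul₀ (Nat.cast_nonneg _) (by positivity) ?_
    obtain ⟨heq, -⟩ := hbaseOK y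
    rw [← heq]
    refine le_trans (le_of_eq (Finset.sum_congr rfl fun j _ => ?_)) (hfail (base y))
    rw [Finset.card_filter, Nat.cast_sum]
    refine Finset.sum_congr rfl fun a _ => ?_
    by_cases h : good j (base y) a <;> simp [bad, h]
  obtain ⟨j, -, hj⟩ : ∃ j ∈ (Finset.univ : Finset (Fin P.m)), μ (Dj j) ≤ δ := by
    refine Finset.exists_le_of_sum_le ⟨⟨0, hm⟩, Finset.mem_univ _⟩ ?_
    rw [← map_sum]
    refine (hmono _ ((δ * P.m) • 1) fun y => by simpa using hsum y).trans (le_of_eq ?_)
    rw [map_smul, hμ1]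
    simp [mul_comm]
  -- the colour
  let ext : (Fin W.card → Seed P.m r) → List (Fin L) → Seed P.m r := fun a x =>
    if h : x ∈ W then a (W.equivFin ⟨x, h⟩) else (fun _ => (false, false), 1)
  have hext : ∀ (a : Fin W.card → Seed P.m r) i, ext a (w i) = a i := fun a i => by
    simp [ext, w, (W.equivFin.symm i).2]
  let F : Ω → (Fin W.card → Seed P.m r) → Fin r := fun v a =>
    pick (ext a []).2 (Finset.univ.filter fun c => 1 / 3 ≤ hist O P D j v (ext a) c)
  have hjLR : ∀ {n}, n ≤ (j : ℕ) * P.L → n ≤ R := fun hn =>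
    hjR j (hn.trans (Nat.le_add_left _ _))
  refine ⟨W.card, w, Seed P.m r, inferInstance, inferInstance, F, bad j, ?_, hbadc j, ?_, ?_,
    Dj j, fun _ => rfl, hj⟩
  · exact (isLocallyConstant_hist O P D hDc j).comp fun h a =>
      pick (ext a []).2 (Finset.univ.filter fun c => (1 : ℝ) / 3 ≤ h (ext a) c)
  · intro ω c
    refine card_colour_eq O (F ω) (fun σ a => ?_) c
    have hn : ([] : List (Fin L)) ∈ W := mem_wordsLE.2 (Nat.zero_le _)
    have e0 : (ext (fun i => renameSeed σ (a i)) []).2 = σ * (ext a []).2 := by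
      simp [ext, hn, renameSeed]
    have e : hist O P D j ω (ext fun i => renameSeed σ (a i)) =
        hist O P D j ω fun x => renameSeed σ (ext a x) := hist_congr O P D hlen j _ _ _ fun x hx => by
      obtain ⟨i, rfl⟩ := hword x (hjLR hx)
      simp [hext]
    simp only [F]
    rw [e0, ← pick_map, e]
    refine congrArg _ ?_
    ext d
    simp only [Finset.mem_map_equiv, Finset.mem_filter, Finset.mem_univ, true_and]
    rw [← hist_rename O P D σ j ω (ext a) (σ.symm d), Equiv.apply_symm_apply]
  · intro π ω hB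
    set a : Fin W.card → Seed P.m r := fun i => π (O.act (w i) ω) with ha
    have haC : a ∈ O.Cons w (Seed P.m r) ω := (mem_consSet O).2 fun i i' h => by simp only [ha, h]
    obtain ⟨heq, hgood⟩ := hbaseOK ω
    have hgω : good j ω a := hgood j a (heq.symm ▸ haC) (by simpa [bad] using hB)
    have hgπ : GoodAt O P D S k Z j ω π := goodAt_congr hnb' hlen (fun x hx => by
      obtain ⟨i, rfl⟩ := hword x (hjR j hx)
      exact read_act O haC i) hgω
    refine paved_of_good hnb' hF hr (q := qAt P (ruleOf O D fun v => (π v).2)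
      (fun i v => coin (π v) i) j) (lawOn_qAt P hr (hrule _) hh0 hh1 _ j) hgπ (fun u hu => ?_)
      (endgame_level_le hr)
    obtain ⟨c, hc⟩ := hgπ.2 u hu
    have e : hist O P D j u (ext fun i => π (O.act (w i) u)) =
        qAt P (ruleOf O D fun v => (π v).2) (fun i v => coin (π v) i) j u := by
      rw [qAt_eq_hist]
      refine hist_congr O P D hlen j _ _ _ fun x hx => ?_
      obtain ⟨i, rfl⟩ := hword x (hjLR hx)
      exact hext (fun i => π (O.act (w i) u)) i
    have hmem := pick_mem (ext (fun i => π (O.act (w i) u)) []).2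
      (S := Finset.univ.filter fun c => 1 / 3 ≤ hist O P D j u (ext fun i => π (O.act (w i) u)) c)
      ⟨c, Finset.mem_filter.2 ⟨Finset.mem_univ _, by rw [e]; exact hc⟩⟩
    have hmem' := (Finset.mem_filter.1 hmem).2
    rw [← e]
    exact hmem'

end Vale.Agent.P078.Any
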