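import Vale.Agent.P078.Any.Model

/-!
The statement of the random paving: a colouring read off independent seeds at finitely many
translates, with every colour exactly equally likely at every point, and a small mean failure.
-/

namespace Vale.Agent.P078.Any

namespace Model

variable {Ω : Type} [TopologicalSpace Ω] {L : ℕ} (O : Model Ω L)

open Classical in
/-- The assignments of seeds to words that agree where two words name the same point. -/
noncomputable def Cons {M : ℕ} (w : Fin M → List (Fin L)) (S : Type) [Fintype S] (ω : Ω) :
    Finset (Fin M → S) :=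
  Finset.univ.filter fun a => ∀ i j, O.act (w i) ω = O.act (w j) ω → a i = a j

end Model

open Classical in
/-- Block D, random form: a colour read off seeds at finitely many translates. Every colour has
probability exactly `1 / r` at every point; the windows of radius `k` are paved by the colouring
of any map of seeds off an event of the seeds whose mean probability is small. -/
def RandomPavingStatement : Prop :=
  ∀ (Ω : Type) [TopologicalSpace Ω] [CompactSpace Ω] [T2Space Ω] [TotallyDisconnectedSpace Ω]
    (L r k : ℕ) (δ : ℝ) (O : Model Ω L) (μ : C(Ω, ℝ) →ₗ[ℝ] ℝ),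
    0 < r → 0 < δ → (∀ f : C(Ω, ℝ), 0 ≤ f → 0 ≤ μ f) → μ 1 = 1 →
    ∃ (M : ℕ) (w : Fin M → List (Fin L)) (S : Type) (_ : Fintype S) (_ : Nonempty S)
      (F : Ω → (Fin M → S) → Fin r) (B : Ω → (Fin M → S) → Bool),
      IsLocallyConstant F ∧ IsLocallyConstant B ∧
      (∀ ω c, r * ((O.Cons w S ω).filter fun a => F ω a = c).card = (O.Cons w S ω).card) ∧
      (∀ (π : Ω → S) ω, B ω (fun i => π (O.act (w i) ω)) = false →
        O.Paved (10 / Real.sqrt r) (fun v => F v fun i => π (O.act (w i) v)) k ω) ∧
      ∃ D : C(Ω, ℝ), (∀ ω, D ω = (((O.Cons w S ω).filter fun a => B ω a = true).card : ℝ) /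
        (O.Cons w S ω).card) ∧ μ D ≤ δ

end Vale.Agent.P078.Any
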